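import Mathlib
import Crest.Agent.RatPR.Approx

/-! Smooth functions with primitive recursive bounds for all derivatives (row 126). -/

namespace Crest.Agent.R126

open scoped ContDiff
open Crest.Agent.RatPR

variable {E : Type*} [NormedAddCommGroup E] [NormedSpace ℝ E]

/-- `f` is smooth, and its derivatives of order at least `k` have primitive recursive bounds on
`S`. -/
def Bd (k : ℕ) (S : Set E) (f : E → ℝ) : Prop :=
  ContDiff ℝ ∞ f ∧ ∃ B : ℕ → ℕ, Primrec B ∧
    ∀ n i, k ≤ i → i ≤ n → ∀ p ∈ S, ‖iteratedFDeriv ℝ i f p‖ ≤ B n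

lemma le_inf' (i : ℕ) : ((i : ℕ) : WithTop ℕ∞) ≤ ∞ := by exact_mod_cast le_top

lemma fact_le {i n : ℕ} (h : i ≤ n) : (i.factorial : ℝ) ≤ ((n + 1) ^ n : ℕ) := by
  have h1 : i.factorial ≤ i ^ i := Nat.factorial_le_pow i
  have h2 : i ^ i ≤ (n + 1) ^ i := Nat.pow_le_pow_left (by omega) i
  have h3 : (n + 1) ^ i ≤ (n + 1) ^ n := Nat.pow_le_pow_right (by omega) h
  exact_mod_cast h1.trans (h2.trans h3)

namespace Bd

variable {k : ℕ} {S : Set E} {f g : E → ℝ}

lemma of_eq (h : Bd k S f) (e : ∀ p, f p = g p) : Bd k S g := by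
  have : f = g := funext e
  exact this ▸ h

lemma mono_set {T : Set E} (h : Bd k S f) (hT : T ⊆ S) : Bd k T f := by
  obtain ⟨h1, B, hB, h2⟩ := h
  exact ⟨h1, B, hB, fun n i a b p hp => h2 n i a b p (hT hp)⟩

lemma one (h : Bd 0 S f) : Bd 1 S f := by
  obtain ⟨h1, B, hB, h2⟩ := h
  exact ⟨h1, B, hB, fun n i _ b p hp => h2 n i (Nat.zero_le _) b p hp⟩

lemma const (c : ℝ) : Bd k S fun _ => c := by
  refine ⟨contDiff_const, fun _ => ⌈|c|⌉₊, Primrec.const _, fun n i _ _ p _ => ?_⟩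
  rcases Nat.eq_zero_or_pos i with h | h
  · subst h
    rw [norm_iteratedFDeriv_zero]
    exact Nat.le_ceil _
  · rw [iteratedFDeriv_const_of_ne h.ne']
    simp

lemma clm_aux (L : E →L[ℝ] ℝ) {i : ℕ} (hi : 1 ≤ i) (p : E) : ‖iteratedFDeriv ℝ i L p‖ ≤ ‖L‖ := by
  obtain ⟨j, rfl⟩ := Nat.exists_eq_add_of_le' hi
  rw [← norm_iteratedFDeriv_fderiv]
  have : fderiv ℝ L = fun _ => L := funext fun _ => L.fderiv
  rw [this]
  rcases Nat.eq_zero_or_pos j with h | h
  · subst h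
    rw [norm_iteratedFDeriv_zero]
  · rw [iteratedFDeriv_const_of_ne h.ne']
    simp

lemma clm_one (L : E →L[ℝ] ℝ) : Bd 1 S L :=
  ⟨L.contDiff, fun _ => ⌈‖L‖⌉₊, Primrec.const _, fun _ _ a _ p _ =>
    (clm_aux L a p).trans (Nat.le_ceil _)⟩

lemma clm_zero (L : E →L[ℝ] ℝ) (R : ℝ) (hS : ∀ p ∈ S, |L p| ≤ R) : Bd 0 S L := by
  refine ⟨L.contDiff, fun _ => ⌈‖L‖⌉₊ + ⌈R⌉₊, Primrec.const _, fun n i _ _ p hp => ?_⟩
  push_cast
  rcases Nat.eq_zero_or_pos i with h | h
  · subst h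
    rw [norm_iteratedFDeriv_zero]
    have := (hS p hp).trans (Nat.le_ceil _)
    rw [Real.norm_eq_abs]
    linarith [(Nat.cast_nonneg ⌈‖L‖⌉₊ : (0 : ℝ) ≤ _)]
  · have := (clm_aux L h p).trans (Nat.le_ceil _)
    linarith [(Nat.cast_nonneg ⌈R⌉₊ : (0 : ℝ) ≤ _)]

lemma add (hf : Bd k S f) (hg : Bd k S g) : Bd k S fun p => f p + g p := by
  obtain ⟨f1, B, hB, f2⟩ := hf
  obtain ⟨g1, C, hC, g2⟩ := hg
  refine ⟨f1.add g1, fun n => B n + C n, Primrec.nat_add.comp hB hC, fun n i a b p hp => ?_⟩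
  rw [fun_iteratedFDeriv_add_apply ((f1.of_le (le_inf' i)).contDiffAt)
    ((g1.of_le (le_inf' i)).contDiffAt)]
  push_cast
  exact (norm_add_le _ _).trans (add_le_add (f2 n i a b p hp) (g2 n i a b p hp))

lemma mul (hf : Bd 0 S f) (hg : Bd 0 S g) : Bd 0 S fun p => f p * g p := by
  obtain ⟨f1, B, hB, f2⟩ := hf
  obtain ⟨g1, C, hC, g2⟩ := hg
  refine ⟨f1.mul g1, fun n => 2 ^ n * (B n * C n),
    Primrec.nat_mul.comp (nat_pow (.const 2) Primrec.id) (Primrec.nat_mul.comp hB hC),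
    fun n i _ b p hp => ?_⟩
  refine (norm_iteratedFDeriv_mul_le f1 g1 p (le_inf' i)).trans ?_
  calc ∑ j ∈ Finset.range (i + 1), (i.choose j : ℝ) * ‖iteratedFDeriv ℝ j f p‖ *
        ‖iteratedFDeriv ℝ (i - j) g p‖
      ≤ ∑ j ∈ Finset.range (i + 1), (i.choose j : ℝ) * (B n * C n) := by
        apply Finset.sum_le_sum
        intro j hj
        rw [Finset.mem_range] at hj
        rw [mul_assoc]
        apply mul_le_mul_of_nonneg_left _ (Nat.cast_nonneg _)
        exact mul_le_mul (f2 n j (Nat.zero_le _) (by omega) p hp)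
          (g2 n (i - j) (Nat.zero_le _) (by omega) p hp) (norm_nonneg _) (Nat.cast_nonneg _)
    _ = (2 ^ i : ℕ) * ((B n : ℝ) * C n) := by
        rw [← Finset.sum_mul, ← Nat.sum_range_choose]; push_cast; rfl
    _ ≤ ((2 ^ n * (B n * C n) : ℕ) : ℝ) := by
        push_cast
        exact mul_le_mul_of_nonneg_right (pow_le_pow_right₀ (by norm_num) b) (by positivity)

lemma neg (hf : Bd 0 S f) : Bd 0 S fun p => -f p :=
  ((const (-1)).mul hf).of_eq fun p => by ring

lemma sub (hf : Bd 0 S f) (hg : Bd 0 S g) : Bd 0 S fun p => f p - g p :=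
  (hf.add hg.neg).of_eq fun p => by ring

lemma comp_aux {s : ℝ → ℝ} {t : Set ℝ} (ht : IsOpen t) (hs : ContDiffOn ℝ ∞ s t)
    (hf : Bd 1 S f) (hr : ∀ p, f p ∈ t) (C : ℕ → ℕ) (hC : Primrec C)
    (hs' : ∀ n i, i ≤ n → ∀ p, ‖iteratedFDeriv ℝ i s (f p)‖ ≤ C n) :
    Bd 0 S fun p => s (f p) := by
  obtain ⟨f1, B, hB, f2⟩ := hf
  refine ⟨hs.comp_contDiff f1 hr, fun n => (n + 1) ^ n * C n * (B n + 1) ^ n,
    Primrec.nat_mul.comp (Primrec.nat_mul.comp (nat_pow Primrec.succ Primrec.id) hC)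
      (nat_pow (Primrec.succ.comp hB) Primrec.id), fun n i _ b p hp => ?_⟩
  have hD : (1 : ℝ) ≤ B n + 1 := by linarith [(Nat.cast_nonneg (B n) : (0 : ℝ) ≤ _)]
  have key := norm_iteratedFDeriv_comp_le' (g := s) (f := f) (n := i) (t := t)
    (by rintro _ ⟨p, rfl⟩; exact hr p) ht.uniqueDiffOn hs f1 (le_inf' i) p (C := C n)
    (D := B n + 1) (fun j hj => by
      rw [iteratedFDerivWithin_of_isOpen j ht (hr p)]
      exact hs' n j (hj.trans b) p)
    (fun j h1 hj => by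
      refine (f2 n j h1 (hj.trans b) p hp).trans ?_
      exact (by linarith : (B n : ℝ) ≤ B n + 1).trans (le_self_pow₀ hD (by omega)))
  refine key.trans ?_
  have a1 := fact_le b
  have a2 : ((B n : ℝ) + 1) ^ i ≤ ((B n : ℝ) + 1) ^ n := pow_le_pow_right₀ hD b
  push_cast at a1 ⊢
  gcongr

lemma comp {s : ℝ → ℝ} (hs : Bd 0 Set.univ s) (hf : Bd 1 S f) : Bd 0 S fun p => s (f p) := by
  obtain ⟨s1, C, hC, s2⟩ := hs
  exact comp_aux isOpen_univ s1.contDiffOn hf (fun _ => Set.mem_univ _) C hC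
    fun n i hi p => s2 n i (Nat.zero_le _) hi _ (Set.mem_univ _)

lemma inv (hf : Bd 1 S f) (M : ℕ) (hM : 0 < M) (hpos : ∀ p, 1 / (M : ℝ) ≤ f p) :
    Bd 0 S fun p => (f p)⁻¹ := by
  have hM1 : (1 : ℝ) ≤ M := by exact_mod_cast hM
  have h0 : ∀ p, 0 < f p := fun p => lt_of_lt_of_le (by positivity) (hpos p)
  refine comp_aux (s := fun x => x⁻¹) (t := Set.Ioi 0) isOpen_Ioi
    ((contDiffOn_inv ℝ).mono fun x hx => ne_of_gt hx) hf h0 (fun n => (n + 1) ^ n * M ^ (n + 1))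
    (Primrec.nat_mul.comp (nat_pow Primrec.succ Primrec.id) (nat_pow (.const M) Primrec.succ))
    fun n i hi p => ?_
  rw [norm_iteratedFDeriv_eq_norm_iteratedDeriv, iteratedDeriv_eq_iterate]
  have := iter_deriv_inv i (f p)
  rw [show (fun x : ℝ => x⁻¹) = Inv.inv from rfl, this]
  have e : (f p) ^ (-1 - (i : ℤ)) = ((f p)⁻¹) ^ (i + 1) := by
    rw [inv_pow, ← zpow_natCast, ← zpow_neg]; congr 1; push_cast; ring
  have i1 : (f p)⁻¹ ≤ M := by
    rw [inv_le_comm₀ (h0 p) (by positivity), ← one_div]; exact hpos p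
  have i2 : ((f p)⁻¹) ^ (i + 1) ≤ (M : ℝ) ^ (n + 1) :=
    (pow_le_pow_left₀ (inv_pos.mpr (h0 p)).le i1 _).trans (pow_le_pow_right₀ hM1 (by omega))
  have a1 := fact_le hi
  rw [e, norm_mul, norm_mul, norm_pow, norm_neg, norm_one, one_pow, one_mul, Real.norm_natCast,
    Real.norm_of_nonneg (pow_nonneg (inv_pos.mpr (h0 p)).le _)]
  push_cast at a1 ⊢
  exact mul_le_mul a1 i2 (pow_nonneg (inv_pos.mpr (h0 p)).le _) (by positivity)

lemma contDiff_dir (hf : ContDiff ℝ ∞ f) (v : E) : ContDiff ℝ ∞ fun p => fderiv ℝ f p v :=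
  (contDiff_infty_iff_fderiv.mp hf).2.clm_apply contDiff_const

lemma norm_dir (hf : ContDiff ℝ ∞ f) {v : E} (hv : ‖v‖ ≤ 1) (i : ℕ) (p : E) :
    ‖iteratedFDeriv ℝ i (fun p => fderiv ℝ f p v) p‖ ≤ ‖iteratedFDeriv ℝ (i + 1) f p‖ := by
  have := norm_iteratedFDeriv_clm_apply_const (c := v) (x := p)
    (contDiff_infty_iff_fderiv.mp hf).2.contDiffAt (le_inf' i)
  rw [norm_iteratedFDeriv_fderiv] at this
  exact this.trans (mul_le_of_le_one_left (norm_nonneg _) hv)

lemma dir (hf : Bd 0 S f) {v : E} (hv : ‖v‖ ≤ 1) : Bd 0 S fun p => fderiv ℝ f p v := by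
  obtain ⟨f1, B, hB, f2⟩ := hf
  exact ⟨contDiff_dir f1 v, fun n => B (n + 1), hB.comp Primrec.succ, fun n i _ b p hp =>
    (norm_dir f1 hv i p).trans (f2 (n + 1) (i + 1) (Nat.zero_le _) (by omega) p hp)⟩

lemma extend (hf : Bd 0 S f) (hS : IsClosed S) (h0 : ∀ p, p ∉ S → f p = 0) :
    Bd 0 Set.univ f := by
  obtain ⟨f1, B, hB, f2⟩ := hf
  refine ⟨f1, B, hB, fun n i a b p _ => ?_⟩
  by_cases hp : p ∈ S
  · exact f2 n i a b p hp
  · have e : f =ᶠ[nhds p] fun _ => 0 := by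
      filter_upwards [hS.isOpen_compl.mem_nhds hp] with q hq using h0 q hq
    rw [(e.iteratedFDeriv ℝ i).eq_of_nhds]
    simp

lemma sum {ι : Type*} (s : Finset ι) {F : ι → E → ℝ} (h : ∀ i ∈ s, Bd k S (F i)) :
    Bd k S fun q => ∑ i ∈ s, F i q := by
  classical
  induction s using Finset.induction_on with
  | empty => exact (const 0).of_eq fun q => by simp
  | insert a s ha ih =>
    refine ((h a (Finset.mem_insert_self _ _)).add
      (ih fun i hi => h i (Finset.mem_insert_of_mem hi))).of_eq fun q => ?_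
    rw [Finset.sum_insert ha]

lemma prod {ι : Type*} (s : Finset ι) {F : ι → E → ℝ} (h : ∀ i ∈ s, Bd 0 S (F i)) :
    Bd 0 S fun q => ∏ i ∈ s, F i q := by
  classical
  induction s using Finset.induction_on with
  | empty => exact (const 1).of_eq fun q => by simp
  | insert a s ha ih =>
    refine ((h a (Finset.mem_insert_self _ _)).mul
      (ih fun i hi => h i (Finset.mem_insert_of_mem hi))).of_eq fun q => ?_
    rw [Finset.prod_insert ha]

lemma lipschitz {s : ℝ → ℝ} (hs : Bd 0 Set.univ s) :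
    ∃ K : ℕ, ∀ x y, |s x - s y| ≤ K * |x - y| := by
  obtain ⟨s1, C, -, s2⟩ := hs
  refine ⟨C 1, fun x y => ?_⟩
  have := Convex.norm_image_sub_le_of_norm_fderiv_le (𝕜 := ℝ) (f := s) (C := C 1) (s := Set.univ)
    (x := y) (y := x) (fun z _ => s1.differentiable (by simp) z) (fun z _ => by
      have := s2 1 1 (by norm_num) le_rfl z (Set.mem_univ _)
      rwa [← norm_iteratedFDeriv_fderiv, norm_iteratedFDeriv_zero] at this)
    convex_univ (Set.mem_univ _) (Set.mem_univ _)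
  simpa using this

end Bd

/-! ### the glue function -/

/-- `x⁻ᵏ exp (-1/x)` glued with zero. -/
noncomputable def ek (k : ℕ) (x : ℝ) : ℝ := x⁻¹ ^ k * expNegInvGlue x

lemma ek_contDiff (k : ℕ) : ContDiff ℝ ∞ (ek k) := by
  have := expNegInvGlue.contDiff_polynomial_eval_inv_mul (n := ⊤) (Polynomial.X ^ k)
  have e : (fun x : ℝ => (Polynomial.X ^ k : Polynomial ℝ).eval x⁻¹ * expNegInvGlue x) = ek k := by
    funext y; simp [ek]
  rwa [e] at this

lemma ek_deriv (k : ℕ) : deriv (ek k) = fun x => ek (k + 2) x - k * ek (k + 1) x := by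
  funext x
  have := expNegInvGlue.hasDerivAt_polynomial_eval_inv_mul (Polynomial.X ^ k) x
  have e : (fun x : ℝ => (Polynomial.X ^ k : Polynomial ℝ).eval x⁻¹ * expNegInvGlue x) = ek k := by
    funext y; simp [ek]
  rw [e] at this
  rw [this.deriv]
  rcases Nat.eq_zero_or_pos k with h | h
  · subst h; simp [ek]
  · obtain ⟨j, rfl⟩ := Nat.exists_eq_add_of_le' h
    simp [ek]
    ring

lemma ek_bound (k : ℕ) (x : ℝ) : |ek k x| ≤ k.factorial := by
  rcases le_or_gt x 0 with h | h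
  · simp [ek, expNegInvGlue.zero_of_nonpos h]
  · have e : expNegInvGlue x = Real.exp (-x⁻¹) := by simp [expNegInvGlue, not_le.mpr h]
    have hy : 0 ≤ x⁻¹ := by positivity
    rw [ek, e, abs_of_nonneg (by positivity), Real.exp_neg]
    have := Real.pow_div_factorial_le_exp x⁻¹ hy k
    rw [div_le_iff₀ (by positivity)] at this
    rw [← div_eq_mul_inv, div_le_iff₀ (Real.exp_pos _)]
    linarith

lemma ek_iter_bound (n : ℕ) : ∀ (k : ℕ) (x : ℝ),
    |iteratedDeriv n (ek k) x| ≤ ((k + 2 * n + 1) ^ n * (k + 2 * n).factorial : ℕ) := by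
  induction n with
  | zero => intro k x; simpa using ek_bound k x
  | succ n ih =>
    intro k x
    rw [iteratedDeriv_succ', ek_deriv]
    have h1 : ContDiffAt ℝ n (ek (k + 2)) x := ((ek_contDiff _).of_le (le_inf' n)).contDiffAt
    have h2 : ContDiffAt ℝ n (ek (k + 1)) x := ((ek_contDiff _).of_le (le_inf' n)).contDiffAt
    rw [iteratedDeriv_fun_sub h1 (contDiffAt_const.mul h2), iteratedDeriv_const_mul _ h2]
    have a := ih (k + 2) x
    have b := ih (k + 1) x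
    have c : (k + 2 + 2 * n + 1) ^ n * (k + 2 + 2 * n).factorial +
        k * ((k + 1 + 2 * n + 1) ^ n * (k + 1 + 2 * n).factorial) ≤
        (k + 2 * (n + 1) + 1) ^ (n + 1) * (k + 2 * (n + 1)).factorial := by
      have e1 : k + 2 * (n + 1) = k + 2 + 2 * n := by ring
      rw [e1]
      have d1 : (k + 1 + 2 * n + 1) ^ n ≤ (k + 2 + 2 * n + 1) ^ n :=
        Nat.pow_le_pow_left (by omega) n
      have d2 : (k + 1 + 2 * n).factorial ≤ (k + 2 + 2 * n).factorial :=
        Nat.factorial_le (by omega)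
      have d3 := Nat.mul_le_mul d1 d2
      calc _ ≤ (k + 2 + 2 * n + 1) ^ n * (k + 2 + 2 * n).factorial +
            k * ((k + 2 + 2 * n + 1) ^ n * (k + 2 + 2 * n).factorial) :=
            Nat.add_le_add_left (Nat.mul_le_mul_left k d3) _
        _ = (k + 1) * ((k + 2 + 2 * n + 1) ^ n * (k + 2 + 2 * n).factorial) := by ring
        _ ≤ (k + 2 + 2 * n + 1) * ((k + 2 + 2 * n + 1) ^ n * (k + 2 + 2 * n).factorial) :=
            Nat.mul_le_mul_right _ (by omega)
        _ = _ := by ring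
    have c' : (((k + 2 + 2 * n + 1) ^ n * (k + 2 + 2 * n).factorial : ℕ) : ℝ) +
        k * (((k + 1 + 2 * n + 1) ^ n * (k + 1 + 2 * n).factorial : ℕ) : ℝ) ≤
        (((k + 2 * (n + 1) + 1) ^ (n + 1) * (k + 2 * (n + 1)).factorial : ℕ) : ℝ) := by
      exact_mod_cast c
    refine (abs_sub _ _).trans ?_
    rw [abs_mul, Nat.abs_cast]
    have := mul_le_mul_of_nonneg_left b (Nat.cast_nonneg k : (0 : ℝ) ≤ k)
    linarith

lemma bd_glue : Bd 0 Set.univ expNegInvGlue := by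
  refine ⟨expNegInvGlue.contDiff, fun n => (2 * n + 1) ^ n * (2 * n + 1) ^ (2 * n),
    Primrec.nat_mul.comp (nat_pow Primrec.nat_double_succ Primrec.id)
      (nat_pow Primrec.nat_double_succ Primrec.nat_double), fun n i _ hi x _ => ?_⟩
  have e : expNegInvGlue = ek 0 := by funext y; simp [ek]
  rw [norm_iteratedFDeriv_eq_norm_iteratedDeriv, e, Real.norm_eq_abs]
  refine (ek_iter_bound i 0 x).trans ?_
  have a1 := fact_le (i := 2 * i) (n := 2 * n) (by omega)
  have a2 : (2 * i + 1) ^ i ≤ (2 * n + 1) ^ n :=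
    (Nat.pow_le_pow_left (by omega) i).trans (Nat.pow_le_pow_right (by omega) hi)
  have a3 : (2 * i).factorial ≤ (2 * n + 1) ^ (2 * n) := by exact_mod_cast a1
  simp only [zero_add]
  exact_mod_cast Nat.mul_le_mul a2 a3

lemma glue_den (x : ℝ) : 1 / ((9 : ℕ) : ℝ) ≤ expNegInvGlue x + expNegInvGlue (1 - x) := by
  have h : 1 / ((9 : ℕ) : ℝ) ≤ expNegInvGlue (1 / 2) := by
    have e : expNegInvGlue (1 / 2) = Real.exp (-2) := by
      simp [expNegInvGlue]
    rw [e, Real.exp_neg, one_div]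
    apply inv_anti₀ (Real.exp_pos _)
    have h1 := Real.exp_one_lt_d9
    have h2 : Real.exp 2 = Real.exp 1 ^ 2 := by rw [← Real.exp_nat_mul]; norm_num
    have h3 := Real.exp_pos 1
    rw [h2]; push_cast; nlinarith
  rcases le_total x (1 / 2) with h' | h'
  · have := expNegInvGlue.monotone (show 1 / 2 ≤ 1 - x by linarith)
    linarith [expNegInvGlue.nonneg x]
  · have := expNegInvGlue.monotone h'
    linarith [expNegInvGlue.nonneg (1 - x)]

lemma bd_step : Bd 0 Set.univ Real.smoothTransition := by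
  have h1 : Bd 1 Set.univ fun x : ℝ => 1 - x :=
    ((Bd.const 1).add (Bd.clm_one (-ContinuousLinearMap.id ℝ ℝ))).of_eq fun x => by simp; ring
  have h2 := bd_glue.add (bd_glue.comp h1)
  exact (bd_glue.mul (h2.one.inv 9 (by norm_num) glue_den)).of_eq fun x => by
    rw [Real.smoothTransition, div_eq_mul_inv]

lemma ap_glue {Q : Type*} [Primcodable Q] {F : Q → ℝ} (hF : Ap F) :
    Ap fun q => expNegInvGlue (F q) := by
  obtain ⟨K, hK⟩ := bd_glue.lipschitz
  exact Ap.comp K hK Ap.expNegInvGlue_rat hF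

lemma ap_step {Q : Type*} [Primcodable Q] {F : Q → ℝ} (hF : Ap F) :
    Ap fun q => Real.smoothTransition (F q) := by
  have h1 : Ap fun q => 1 - F q := ((Ap.const 1).sub hF).of_eq fun q => by simp
  have h2 := (ap_glue hF).add (ap_glue h1)
  exact ((ap_glue hF).mul (h2.inv 9 (by norm_num) fun q => glue_den _)).of_eq fun x => by
    rw [Real.smoothTransition, div_eq_mul_inv]

end Crest.Agent.R126
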