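import Mathlib
import Crest.Prelude.Def_BoxFlow
import Crest.Agent.R126.Bd

/-! Finite differences: all mixed derivatives are approximable (row 126). -/

namespace Crest.Agent.R126

open scoped ContDiff
open Crest.Agent.RatPR Crest.AnalysisR.BoxFlow

abbrev X : Type := ℝ × (Fin 3 → ℝ)

abbrev Qp : Type := ℚ × (Fin 3 → ℚ)

/-- the space-time point with rational coordinates. -/
def cast (q : Qp) : X := ((q.1 : ℝ), ratPoint q.2)

/-- mixed derivative of a scalar function. -/
noncomputable def md : List (Fin 4) → (X → ℝ) → X → ℝ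
  | [], f => f
  | d :: ds, f => fun p => fderiv ℝ (md ds f) p (direction d)

lemma norm_direction (d : Fin 4) : ‖direction d‖ ≤ 1 := by
  unfold direction
  split_ifs
  · simp
  · simp [Prod.norm_def, Pi.norm_single]

lemma md_contDiff {f : X → ℝ} (hf : ContDiff ℝ ∞ f) : ∀ ds, ContDiff ℝ ∞ (md ds f)
  | [] => hf
  | d :: ds => Bd.contDiff_dir (md_contDiff hf ds) (direction d)

lemma md_bound {f : X → ℝ} (hf : ContDiff ℝ ∞ f) : ∀ (ds : List (Fin 4)) (i : ℕ) (p : X),
    ‖iteratedFDeriv ℝ i (md ds f) p‖ ≤ ‖iteratedFDeriv ℝ (i + ds.length) f p‖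
  | [], _, _ => le_rfl
  | d :: ds, i, p => by
    refine (Bd.norm_dir (md_contDiff hf ds) (norm_direction d) i p).trans ?_
    have := md_bound hf ds (i + 1) p
    rwa [show i + 1 + ds.length = i + (d :: ds).length by simp; ring] at this

lemma abs_md_le {f : X → ℝ} (hf : ContDiff ℝ ∞ f) (ds : List (Fin 4)) (p : X) :
    |md ds f p| ≤ ‖iteratedFDeriv ℝ ds.length f p‖ := by
  have := md_bound hf ds 0 p
  rwa [norm_iteratedFDeriv_zero, zero_add] at this

lemma hasDerivAt_line {g : X → ℝ} (hg : ContDiff ℝ ∞ g) (p v : X) (s : ℝ) :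
    HasDerivAt (fun s : ℝ => g (p + s • v)) (fderiv ℝ g (p + s • v) v) s := by
  have h1 : HasDerivAt (fun s : ℝ => p + s • v) v s := by
    simpa using ((hasDerivAt_id s).smul_const v).const_add p
  exact (hg.differentiable (by simp) _).hasFDerivAt.comp_hasDerivAt s h1

lemma diff_quot {g : X → ℝ} (hg : ContDiff ℝ ∞ g) (p v : X) {δ B : ℝ} (hδ : 0 < δ)
    (hB : ∀ q, |fderiv ℝ (fun p => fderiv ℝ g p v) q v| ≤ B) :
    |fderiv ℝ g p v - (g (p + δ • v) - g p) / δ| ≤ B * δ := by
  obtain ⟨ξ, hξ, e⟩ := exists_hasDerivAt_eq_slope (fun s : ℝ => g (p + s • v))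
    (fun s => fderiv ℝ g (p + s • v) v) hδ
    (fun s _ => (hasDerivAt_line hg p v s).continuousAt.continuousWithinAt)
    (fun s _ => hasDerivAt_line hg p v s)
  obtain ⟨ζ, -, e'⟩ := exists_hasDerivAt_eq_slope (fun s : ℝ => fderiv ℝ g (p + s • v) v)
    (fun s => fderiv ℝ (fun p => fderiv ℝ g p v) (p + s • v) v) hξ.1
    (fun s _ => (hasDerivAt_line (Bd.contDiff_dir hg v) p v s).continuousAt.continuousWithinAt)
    (fun s _ => hasDerivAt_line (Bd.contDiff_dir hg v) p v s)
  simp only [zero_smul, add_zero, sub_zero] at e e'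
  rw [← e, abs_sub_comm]
  have h1 := hB (p + ζ • v)
  rw [e', abs_div, abs_of_pos hξ.1, div_le_iff₀ hξ.1] at h1
  have hB0 : 0 ≤ B := (abs_nonneg _).trans (hB p)
  exact h1.trans (mul_le_mul_of_nonneg_left hξ.2.le hB0)

/-- shift of a rational point in a coordinate direction. -/
def shift (q : Qp) (d : Fin 4) (δ : ℚ) : Qp :=
  (q.1 + (if d = 0 then δ else 0), fun j => q.2 j + (if d = j.succ then δ else 0))

lemma cast_shift (q : Qp) (d : Fin 4) (δ : ℚ) :
    cast (shift q d δ) = cast q + (δ : ℝ) • direction d := by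
  ext j
  · fin_cases d <;> simp [cast, shift, direction]
  · fin_cases d <;> fin_cases j <;> simp [cast, shift, direction, ratPoint]

lemma primrec_pi {α σ : Type*} [Primcodable α] [Primcodable σ] {n : ℕ} {f : α → Fin n → σ}
    (h : ∀ j, Primrec fun a => f a j) : Primrec f :=
  Primrec.fin_curry.2 (Primrec.fin_curry₁.2 h).swap

lemma primrec_apply {α σ : Type*} [Primcodable α] [Primcodable σ] {n : ℕ} {f : α → Fin n → σ}
    (h : Primrec f) (j : Fin n) : Primrec fun a => f a j :=
  Primrec.fin_app.comp h (.const j)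

lemma primrec_shift {α : Type*} [Primcodable α] {q : α → Qp} {d : α → Fin 4} {δ : α → ℚ}
    (hq : Primrec q) (hd : Primrec d) (hδ : Primrec δ) :
    Primrec fun a => shift (q a) (d a) (δ a) := by
  refine Primrec.pair (RatPR.add (Primrec.fst.comp hq)
    (Primrec.ite (Primrec.eq.comp hd (.const 0)) hδ (.const 0))) (primrec_pi fun j => ?_)
  exact RatPR.add (primrec_apply (Primrec.snd.comp hq) j)
    (Primrec.ite (Primrec.eq.comp hd (.const j.succ)) hδ (.const 0))

abbrev St : Type := List (ℚ × Qp) × ℕ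

/-- one finite difference step on a single term. -/
def split (M : ℕ) (d : Fin 4) (x : ℚ × Qp) : List (ℚ × Qp) :=
  [(x.1 * M, shift x.2 d (M : ℚ)⁻¹), (-(x.1 * M), x.2)]

/-- one finite difference step. -/
def step (P : ℕ) (s : St) (d : Fin 4) : St :=
  (s.1.flatMap (split (s.2 * P + 1) d), 2 * s.2 * (s.2 * P + 1))

noncomputable def val (f : X → ℝ) (ds : List (Fin 4)) (L : List (ℚ × Qp)) : ℝ :=
  (L.map fun x => (x.1 : ℝ) * md ds f (cast x.2)).sum

noncomputable def wt (L : List (ℚ × Qp)) : ℝ := (L.map fun x => |(x.1 : ℝ)|).sum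

lemma wt_flatMap (M : ℕ) (d : Fin 4) (L : List (ℚ × Qp)) :
    wt (L.flatMap (split M d)) = 2 * M * wt L := by
  induction L with
  | nil => simp [wt]
  | cons x L ih =>
    simp only [wt, List.flatMap_cons, List.map_append, List.sum_append, List.map_cons,
      List.sum_cons] at ih ⊢
    rw [ih]
    simp [split, abs_mul]
    ring

lemma val_flatMap {f : X → ℝ} (hf : ContDiff ℝ ∞ f) {M : ℕ} (hM : 0 < M) (d : Fin 4)
    (ds : List (Fin 4)) {B : ℝ} (hB : ∀ q, |md (d :: d :: ds) f q| ≤ B) (L : List (ℚ × Qp)) :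
    |val f (d :: ds) L - val f ds (L.flatMap (split M d))| ≤ wt L * (B / M) := by
  have hM' : (0 : ℝ) < M := by exact_mod_cast hM
  induction L with
  | nil => simp [wt, val]
  | cons x L ih =>
    simp only [wt, val, List.flatMap_cons, List.map_append, List.sum_append, List.map_cons,
      List.sum_cons] at ih ⊢
    have key := diff_quot (md_contDiff hf ds) (cast x.2) (direction d) (inv_pos.mpr hM') hB
    have e : (List.map (fun x : ℚ × Qp => (x.1 : ℝ) * md ds f (cast x.2)) (split M d x)).sum =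
        x.1 * ((md ds f (cast x.2 + (M : ℝ)⁻¹ • direction d) - md ds f (cast x.2)) / (M : ℝ)⁻¹) := by
      simp [split, cast_shift]
      ring
    rw [e]
    have e2 : md (d :: ds) f (cast x.2) = fderiv ℝ (md ds f) (cast x.2) (direction d) := rfl
    rw [← e2] at key
    set A := md (d :: ds) f (cast x.2)
    set D := (md ds f (cast x.2 + (M : ℝ)⁻¹ • direction d) - md ds f (cast x.2)) / (M : ℝ)⁻¹
    set u := (List.map (fun x : ℚ × Qp => (x.1 : ℝ) * md (d :: ds) f (cast x.2)) L).sum
    set w := (List.map (fun x : ℚ × Qp => (x.1 : ℝ) * md ds f (cast x.2))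
      (List.flatMap (split M d) L)).sum
    have e3 : (x.1 : ℝ) * A + u - (x.1 * D + w) = x.1 * (A - D) + (u - w) := by ring
    rw [e3]
    refine (abs_add_le _ _).trans ?_
    rw [abs_mul, add_mul]
    have := mul_le_mul_of_nonneg_left key (abs_nonneg (x.1 : ℝ))
    rw [← div_eq_mul_inv] at this
    linarith

lemma fold_spec {f : X → ℝ} (hf : ContDiff ℝ ∞ f) (m B P' : ℕ) (hP : 0 < P')
    (hB : ∀ ds : List (Fin 4), ds.length ≤ m + 1 → ∀ q, |md ds f q| ≤ B) :
    ∀ (ds : List (Fin 4)) (s : St), ds.length ≤ m → wt s.1 ≤ s.2 →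
      wt (ds.foldl (step (B * P')) s).1 ≤ (ds.foldl (step (B * P')) s).2 ∧
      |val f ds s.1 - val f [] (ds.foldl (step (B * P')) s).1| ≤ ds.length / P'
  | [], s, _, h => by simp [h]
  | d :: ds, s, hl, h => by
    simp only [List.length_cons] at hl
    have hM : 0 < s.2 * (B * P') + 1 := Nat.succ_pos _
    have h1 : wt (step (B * P') s d).1 ≤ (step (B * P') s d).2 := by
      simp only [step, wt_flatMap]
      push_cast
      have : (0 : ℝ) ≤ 2 * ((s.2 : ℝ) * (B * P') + 1) := by positivity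
      nlinarith
    obtain ⟨i1, i2⟩ := fold_spec hf m B P' hP hB ds (step (B * P') s d) (by omega) h1
    refine ⟨i1, ?_⟩
    have h2 := val_flatMap hf hM d ds (hB (d :: d :: ds) (by simp; omega)) s.1
    have hP' : (0 : ℝ) < P' := by exact_mod_cast hP
    have h3 : wt s.1 * ((B : ℝ) / (s.2 * (B * P') + 1 : ℕ)) ≤ 1 / P' := by
      refine (mul_le_mul_of_nonneg_right h (by positivity)).trans ?_
      rw [← mul_div_assoc, div_le_div_iff₀ (by positivity) hP']
      push_cast
      linarith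
    simp only [List.foldl_cons, List.length_cons]
    have h4 := abs_sub_le (val f (d :: ds) s.1) (val f ds (step (B * P') s d).1)
      (val f [] (ds.foldl (step (B * P')) (step (B * P') s d)).1)
    have e : (step (B * P') s d).1 = s.1.flatMap (split (s.2 * (B * P') + 1) d) := rfl
    rw [← e] at h2
    push_cast
    rw [add_div]
    linarith

lemma primrec_step : Primrec fun x : ℕ × St × Fin 4 => step x.1 x.2.1 x.2.2 := by
  have hS : Primrec fun x : ℕ × St × Fin 4 => x.2.1.2 :=
    Primrec.snd.comp (Primrec.fst.comp Primrec.snd)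
  have hM : Primrec fun x : ℕ × St × Fin 4 => x.2.1.2 * x.1 + 1 :=
    Primrec.succ.comp (Primrec.nat_mul.comp hS Primrec.fst)
  refine Primrec.pair (Primrec.list_flatMap (Primrec.fst.comp (Primrec.fst.comp Primrec.snd)) ?_)
    (Primrec.nat_mul.comp (Primrec.nat_double.comp hS) hM)
  have hM' : Primrec fun y : (ℕ × St × Fin 4) × (ℚ × Qp) => ((y.1.2.1.2 * y.1.1 + 1 : ℕ) : ℚ) :=
    natCast (hM.comp Primrec.fst)
  have hc : Primrec fun y : (ℕ × St × Fin 4) × (ℚ × Qp) =>
      y.2.1 * ((y.1.2.1.2 * y.1.1 + 1 : ℕ) : ℚ) :=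
    RatPR.mul (Primrec.fst.comp Primrec.snd) hM'
  have hq : Primrec fun y : (ℕ × St × Fin 4) × (ℚ × Qp) => y.2.2 := Primrec.snd.comp Primrec.snd
  have hd : Primrec fun y : (ℕ × St × Fin 4) × (ℚ × Qp) => y.1.2.2 :=
    Primrec.snd.comp (Primrec.snd.comp Primrec.fst)
  exact Primrec.list_cons.comp (hc.pair (primrec_shift hq hd (RatPR.inv hM')))
    (Primrec.list_cons.comp ((RatPR.neg' hc).pair hq) (.const []))

lemma val_approx {f : X → ℝ} (E : Qp × ℕ → ℚ) (N : ℕ)
    (hE : ∀ q, |f (cast q) - (E (q, N) : ℝ)| ≤ 1 / ((N : ℝ) + 1)) (L : List (ℚ × Qp)) :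
    |val f [] L - ((L.foldr (fun x s => x.1 * E (x.2, N) + s) 0 : ℚ) : ℝ)| ≤
      wt L * (1 / ((N : ℝ) + 1)) := by
  induction L with
  | nil => simp [val, wt]
  | cons x L ih =>
    simp only [val, wt, List.map_cons, List.sum_cons, List.foldr_cons, md] at ih ⊢
    push_cast
    set u := (List.map (fun x : ℚ × Qp => (x.1 : ℝ) * f (cast x.2)) L).sum
    set w := ((L.foldr (fun x s => x.1 * E (x.2, N) + s) 0 : ℚ) : ℝ)
    have e3 : (x.1 : ℝ) * f (cast x.2) + u - (x.1 * E (x.2, N) + w) =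
        x.1 * (f (cast x.2) - E (x.2, N)) + (u - w) := by ring
    rw [e3]
    refine (abs_add_le _ _).trans ?_
    rw [abs_mul, add_mul]
    have := mul_le_mul_of_nonneg_left (hE x.2) (abs_nonneg (x.1 : ℝ))
    linarith

theorem ap_md {f : X → ℝ} (hf : Bd 0 Set.univ f) (ha : Ap fun q => f (cast q)) :
    Ap fun x : List (Fin 4) × Qp => md x.1 f (cast x.2) := by
  obtain ⟨f1, B, hB, f2⟩ := hf
  obtain ⟨E, hE, h⟩ := ha
  let P : (List (Fin 4) × Qp) × ℕ → ℕ := fun y =>
    B (y.1.1.length + 1) * (2 * (y.1.1.length + 1) * (y.2 + 1))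
  have hlen : Primrec fun y : (List (Fin 4) × Qp) × ℕ => y.1.1.length + 1 :=
    Primrec.succ.comp (Primrec.list_length.comp (Primrec.fst.comp Primrec.fst))
  have hP : Primrec P := Primrec.nat_mul.comp (hB.comp hlen)
    (Primrec.nat_mul.comp (Primrec.nat_double.comp hlen) (Primrec.succ.comp Primrec.snd))
  let F : (List (Fin 4) × Qp) × ℕ → St := fun y => y.1.1.foldl (step (P y)) ([(1, y.1.2)], 1)
  have hF : Primrec F := by
    refine Primrec.list_foldl (h := fun y (z : St × Fin 4) => step (P y) z.1 z.2)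
      (Primrec.fst.comp Primrec.fst)
      ((Primrec.list_cons.comp ((Primrec.const 1).pair (Primrec.snd.comp Primrec.fst))
        (.const [])).pair (.const 1)) ?_
    exact primrec_step.comp ((hP.comp Primrec.fst).pair Primrec.snd)
  let N : (List (Fin 4) × Qp) × ℕ → ℕ := fun y => 2 * (F y).2 * (y.2 + 1)
  have hN : Primrec N := Primrec.nat_mul.comp (Primrec.nat_double.comp (Primrec.snd.comp hF))
    (Primrec.succ.comp Primrec.snd)
  refine ⟨fun y => (F y).1.foldr (fun x s => x.1 * E (x.2, N y) + s) 0, ?_, ?_⟩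
  · refine Primrec.list_foldr (h := fun y (z : (ℚ × Qp) × ℚ) => z.1.1 * E (z.1.2, N y) + z.2)
      (Primrec.fst.comp hF) (.const 0) ?_
    exact RatPR.add (RatPR.mul (Primrec.fst.comp (Primrec.fst.comp Primrec.snd))
      (hE.comp ((Primrec.snd.comp (Primrec.fst.comp Primrec.snd)).pair (hN.comp Primrec.fst))))
      (Primrec.snd.comp Primrec.snd)
  · rintro ⟨ds, q⟩ n
    obtain ⟨i1, i2⟩ := fold_spec f1 ds.length (B (ds.length + 1)) (2 * (ds.length + 1) * (n + 1))
      (by positivity) (fun es he p => (abs_md_le f1 es p).trans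
        (f2 _ _ (Nat.zero_le _) he p (Set.mem_univ _))) ds ([(1, q)], 1) le_rfl (by simp [wt])
    have i3 := val_approx E (N ((ds, q), n)) (fun q' => h q' _) (F ((ds, q), n)).1
    have e : val f ds [(1, q)] = md ds f (cast q) := by simp [val]
    change wt (F ((ds, q), n)).1 ≤ (F ((ds, q), n)).2 at i1
    change |val f ds [(1, q)] - val f [] (F ((ds, q), n)).1| ≤ _ at i2
    rw [e] at i2
    have i4 : wt (F ((ds, q), n)).1 * (1 / ((N ((ds, q), n) : ℝ) + 1)) ≤ 1 / (2 * ((n : ℝ) + 1)) := by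
      refine (mul_le_mul_of_nonneg_right i1 (by positivity)).trans ?_
      rw [mul_one_div, div_le_div_iff₀ (by positivity) (by positivity)]
      simp only [N]
      push_cast
      linarith
    have i5 : (ds.length : ℝ) / ((2 * (ds.length + 1) * (n + 1) : ℕ) : ℝ) ≤
        1 / (2 * ((n : ℝ) + 1)) := by
      rw [div_le_div_iff₀ (by positivity) (by positivity)]
      push_cast
      nlinarith [(Nat.cast_nonneg n : (0 : ℝ) ≤ n)]
    have i6 := abs_sub_le (md ds f (cast q)) (val f [] (F ((ds, q), n)).1)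
      (((F ((ds, q), n)).1.foldr (fun x s => x.1 * E (x.2, N ((ds, q), n)) + s) 0 : ℚ) : ℝ)
    have i7 : 1 / (2 * ((n : ℝ) + 1)) + 1 / (2 * ((n : ℝ) + 1)) = 1 / ((n : ℝ) + 1) := by
      field_simp; ring
    simp only
    linarith

lemma ap_dir {f : X → ℝ} (hf : Bd 0 Set.univ f) (ha : Ap fun q => f (cast q)) (d : Fin 4) :
    Ap fun q => fderiv ℝ f (cast q) (direction d) :=
  (ap_md hf ha).comp_primrec (g := fun q : Qp => ([d], q)) ((Primrec.const [d]).pair Primrec.id)

lemma mixedDeriv_eq {u : Fin 3 → X → ℝ} (hu : ∀ j, ContDiff ℝ ∞ (u j)) :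
    ∀ ds, mixedDeriv ds (fun p j => u j p) = fun p j => md ds (u j) p
  | [] => rfl
  | d :: ds => by
    funext p j
    simp only [mixedDeriv, md, mixedDeriv_eq hu ds]
    rw [fderiv_pi (fun i => (md_contDiff (hu i) ds).differentiable (by simp) p)]
    rfl

theorem effective_of {u : Fin 3 → X → ℝ} (hu : ∀ j, Bd 0 Set.univ (u j))
    (ha : ∀ j, Ap fun q => u j (cast q)) : Effective fun p j => u j p := by
  choose E hE hE' using fun j => ap_md (hu j) (ha j)
  choose B hB hB' using fun j => (hu j).2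
  refine ⟨fun y j => E j ((y.1, y.2.1), y.2.2),
    fun ds => B 0 ds.length + B 1 ds.length + B 2 ds.length, ?_, ?_, ?_, ?_⟩
  · exact (primrec_pi fun j => (hE j).comp ((Primrec.fst.pair
      (Primrec.fst.comp Primrec.snd)).pair (Primrec.snd.comp Primrec.snd))).to_comp
  · exact (Primrec.nat_add.comp (Primrec.nat_add.comp ((hB 0).comp Primrec.list_length)
      ((hB 1).comp Primrec.list_length)) ((hB 2).comp Primrec.list_length)).to_comp
  · intro ds t q n j
    rw [mixedDeriv_eq fun j => (hu j).1]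
    exact hE' j (ds, (t, q)) n
  · intro ds p j
    rw [mixedDeriv_eq fun j => (hu j).1]
    refine ((abs_md_le (hu j).1 ds p).trans
      (hB' j _ _ (Nat.zero_le _) le_rfl p (Set.mem_univ _))).trans ?_
    have : B j ds.length ≤ B 0 ds.length + B 1 ds.length + B 2 ds.length := by
      fin_cases j <;> simp <;> omega
    exact_mod_cast this

end Crest.Agent.R126
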