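import Mathlib
import Crest.Agent.R126.FD

/-! The class of effective smooth functions on space-time, and global solutions (row 126). -/

namespace Crest.Agent.R126

open scoped ContDiff
open Crest.Agent.RatPR Crest.AnalysisR.BoxFlow

/-- smooth with effective derivative bounds on `S`, and approximable at rational points. -/
structure G (S : Set X) (f : X → ℝ) : Prop where
  bd : Bd 0 S f
  ap : Ap fun q => f (cast q)

namespace G

variable {S : Set X} {f g : X → ℝ}

lemma of_eq (h : G S f) (e : ∀ p, f p = g p) : G S g := by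
  have : f = g := funext e
  exact this ▸ h

lemma contDiff (h : G S f) : ContDiff ℝ ∞ f := h.bd.1

lemma const (c : ℚ) : G S fun _ => (c : ℝ) := ⟨Bd.const _, Ap.const c⟩

lemma add (hf : G S f) (hg : G S g) : G S fun p => f p + g p := ⟨hf.bd.add hg.bd, hf.ap.add hg.ap⟩

lemma mul (hf : G S f) (hg : G S g) : G S fun p => f p * g p := ⟨hf.bd.mul hg.bd, hf.ap.mul hg.ap⟩

lemma neg (hf : G S f) : G S fun p => -f p := ⟨hf.bd.neg, hf.ap.neg⟩

lemma sub (hf : G S f) (hg : G S g) : G S fun p => f p - g p := ⟨hf.bd.sub hg.bd, hf.ap.sub hg.ap⟩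

lemma inv (hf : G S f) {ε : ℝ} (hε : 0 < ε) (h : ∀ p, ε ≤ f p) : G S fun p => (f p)⁻¹ := by
  obtain ⟨M, hM⟩ := exists_nat_one_div_lt hε
  have h' : ∀ p, 1 / ((M + 1 : ℕ) : ℝ) ≤ f p := fun p => by
    push_cast; exact hM.le.trans (h p)
  exact ⟨hf.bd.one.inv (M + 1) (Nat.succ_pos M) h', hf.ap.inv (M + 1) (Nat.succ_pos M) fun q => h' _⟩

lemma step (hf : G S f) : G S fun p => Real.smoothTransition (f p) :=
  ⟨bd_step.comp hf.bd.one, ap_step hf.ap⟩

lemma sum {ι : Type*} (s : Finset ι) {F : ι → X → ℝ} (h : ∀ i ∈ s, G S (F i)) :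
    G S fun q => ∑ i ∈ s, F i q :=
  ⟨Bd.sum s fun i hi => (h i hi).bd, Ap.sum s fun i hi => (h i hi).ap⟩

lemma prod {ι : Type*} (s : Finset ι) {F : ι → X → ℝ} (h : ∀ i ∈ s, G S (F i)) :
    G S fun q => ∏ i ∈ s, F i q :=
  ⟨Bd.prod s fun i hi => (h i hi).bd, Ap.prod s fun i hi => (h i hi).ap⟩

lemma restrict (h : G Set.univ f) : G S f := ⟨h.bd.mono_set (Set.subset_univ _), h.ap⟩

lemma extend (h : G S f) (hS : IsClosed S) (h0 : ∀ p, p ∉ S → f p = 0) : G Set.univ f :=
  ⟨h.bd.extend hS h0, h.ap⟩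

lemma dir (h : G Set.univ f) (d : Fin 4) : G Set.univ fun p => fderiv ℝ f p (direction d) :=
  ⟨h.bd.dir (norm_direction d), ap_dir h.bd h.ap d⟩

lemma bound (h : G Set.univ f) : ∃ R : ℝ, ∀ p, |f p| ≤ R := by
  obtain ⟨-, B, -, hB⟩ := h.bd
  refine ⟨B 0, fun p => ?_⟩
  have := hB 0 0 le_rfl le_rfl p (Set.mem_univ _)
  rwa [norm_iteratedFDeriv_zero] at this

lemma coord (l : Fin 3) (R : ℝ) (hS : ∀ p ∈ S, |p.2 l| ≤ R) : G S fun p => p.2 l :=
  ⟨Bd.clm_zero ((ContinuousLinearMap.proj l).comp (ContinuousLinearMap.snd ℝ ℝ (Fin 3 → ℝ))) R hS,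
    Ap.of_primrec (primrec_apply Primrec.snd l)⟩

lemma time (k : ℚ) : G Set.univ fun p : X => Real.smoothTransition (8 * p.1 - k) := by
  constructor
  · refine bd_step.comp (((Bd.const (-(k : ℝ))).add
      (Bd.clm_one ((8 : ℝ) • ContinuousLinearMap.fst ℝ ℝ (Fin 3 → ℝ)))).of_eq fun p => ?_)
    simp; ring
  · refine ap_step ((Ap.of_primrec (RatPR.sub (RatPR.mul (Primrec.const 8) Primrec.fst)
      (Primrec.const k))).of_eq fun q => ?_)
    simp [cast]

lemma contDiff_time {g : ℝ → ℝ} (h : G S fun p => g p.1) : ContDiff ℝ ∞ g :=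
  h.contDiff.comp (f := fun t : ℝ => ((t, 0) : X)) (contDiff_id.prodMk contDiff_const)

lemma deriv {g : ℝ → ℝ} (h : G Set.univ fun p => g p.1) : G Set.univ fun p => deriv g p.1 := by
  refine (h.dir 0).of_eq fun p => ?_
  have h1 := hasDerivAt_line h.contDiff p (direction 0) 0
  have h2 : HasDerivAt (fun s : ℝ => g (p.1 + s)) (_root_.deriv g p.1) 0 := by
    have := (h.contDiff_time.differentiable (by simp) (p.1 + 0)).hasDerivAt.comp_const_add p.1 0
    simpa using this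
  have e : (fun s : ℝ => g (p + s • direction 0).1) = fun s => g (p.1 + s) := by
    funext s; simp [direction]
  rw [e] at h1
  simpa using h1.unique h2

end G

lemma fderiv_symm {f : X → ℝ} (hf : ContDiff ℝ ∞ f) (p v w : X) :
    fderiv ℝ (fun q => fderiv ℝ f q v) p w = fderiv ℝ (fun q => fderiv ℝ f q w) p v := by
  obtain ⟨h1, h2⟩ := contDiff_infty_iff_fderiv.mp hf
  have h3 := (h2.differentiable (by simp) p).hasFDerivAt
  have key : ∀ v w, fderiv ℝ (fun q => fderiv ℝ f q v) p w = fderiv ℝ (fderiv ℝ f) p w v := by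
    intro v w
    rw [(h3.clm_apply (hasFDerivAt_const v p)).fderiv]
    simp
  rw [key, key]
  exact second_derivative_symmetric (fun y => (h1 y).hasFDerivAt) h3 w v

lemma fderiv_dir_eq {A a : X → ℝ} {p v : X} {d : ℝ} (hA : ContDiff ℝ ∞ A) (h : A =ᶠ[nhds p] a)
    (hd : HasDerivAt (fun s : ℝ => a (p + s • v)) d 0) : fderiv ℝ A p v = d := by
  have h1 := hasDerivAt_line hA p v 0
  have h2 : Filter.Tendsto (fun s : ℝ => p + s • v) (nhds 0) (nhds p) := by
    have : Continuous fun s : ℝ => p + s • v := by fun_prop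
    simpa using this.tendsto 0
  have h3 : (fun s : ℝ => A (p + s • v)) =ᶠ[nhds 0] fun s => a (p + s • v) := h2.eventually h
  simpa using h1.unique (hd.congr_of_eventuallyEq h3)

lemma exists_global_solution {U : Field} (hU : ContDiff ℝ ∞ U) (hc : HasCompactSupport U)
    (h0 : ∀ p : X, p.1 ∉ Set.Icc (1 / 4 : ℝ) (3 / 4) → U p = 0) (x : Fin 3 → ℝ) :
    ∃ γ : ℝ → Fin 3 → ℝ, γ 0 = x ∧ ∀ t, HasDerivAt γ (U (t, γ t)) t := by
  obtain ⟨K, hK⟩ := ContDiff.lipschitzWith_of_hasCompactSupport hc hU (by simp)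
  obtain ⟨C, hC⟩ := hc.exists_bound_of_continuous hU.continuous
  have hC0 : 0 ≤ C := (norm_nonneg _).trans (hC 0)
  have hPL : IsPicardLindelof (fun t y => U (t, y)) (tmin := 0) (tmax := 1)
      ⟨0, by simp⟩ x ⟨C, hC0⟩ 0 ⟨C, hC0⟩ K :=
    { lipschitzOnWith := fun t _ => by
        have := hK.comp (LipschitzWith.prodMk_left (β := Fin 3 → ℝ) t)
        rw [mul_one] at this
        exact this.lipschitzOnWith
      continuousOn := fun y _ =>
        (hU.continuous.comp (continuous_id.prodMk continuous_const)).continuousOn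
      norm_le := fun t _ y _ => hC _
      mul_max_le := by simp }
  obtain ⟨α, h1, h2⟩ := hPL.exists_eq_forall_mem_Icc_hasDerivWithinAt₀
  let γ : ℝ → Fin 3 → ℝ := fun t => α (max 0 (min t 1))
  have e1 : ∀ t, t ≤ 0 → γ t = α 0 := fun t ht => by
    simp only [γ]; rw [max_eq_left (min_le_of_left_le ht)]
  have e2 : ∀ t, 1 ≤ t → γ t = α 1 := fun t ht => by
    simp only [γ]; rw [min_eq_right ht, max_eq_right zero_le_one]
  have e3 : ∀ t ∈ Set.Icc (0 : ℝ) 1, γ t = α t := fun t ht => by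
    simp only [γ]; rw [min_eq_left ht.2, max_eq_right ht.1]
  have d1 : ∀ t, t ≤ 0 → HasDerivWithinAt γ (U (t, γ t)) (Set.Iic 0) t := fun t ht => by
    rw [h0 _ (fun h => by have := h.1; simp only at this; linarith)]
    exact (hasDerivWithinAt_const t _ (α 0)).congr (fun s hs => e1 s hs) (e1 t ht)
  have d2 : ∀ t, 1 ≤ t → HasDerivWithinAt γ (U (t, γ t)) (Set.Ici 1) t := fun t ht => by
    rw [h0 _ (fun h => by have := h.2; simp only at this; linarith)]
    exact (hasDerivWithinAt_const t _ (α 1)).congr (fun s hs => e2 s hs) (e2 t ht)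
  have d3 : ∀ t ∈ Set.Icc (0 : ℝ) 1, HasDerivWithinAt γ (U (t, γ t)) (Set.Icc 0 1) t :=
    fun t ht => by
      rw [e3 t ht]
      exact (h2 t ht).congr e3 (e3 t ht)
  refine ⟨γ, by rw [e1 0 le_rfl]; exact h1, fun t => ?_⟩
  rcases lt_trichotomy t 0 with h | h | h
  · exact (d1 t h.le).hasDerivAt (Iic_mem_nhds h)
  · subst h
    refine ((d1 0 le_rfl).union (d3 0 ⟨le_rfl, zero_le_one⟩)).hasDerivAt ?_
    rw [Set.Iic_union_Icc_eq_Iic zero_le_one]
    exact Iic_mem_nhds one_pos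
  · rcases lt_trichotomy t 1 with h' | h' | h'
    · exact (d3 t ⟨h.le, h'.le⟩).hasDerivAt (Icc_mem_nhds h h')
    · subst h'
      refine ((d3 1 ⟨zero_le_one, le_rfl⟩).union (d2 1 le_rfl)).hasDerivAt ?_
      rw [Set.Icc_union_Ici_eq_Ici zero_le_one]
      exact Ici_mem_nhds one_pos
    · exact (d2 t h'.le).hasDerivAt (Ici_mem_nhds h')

end Crest.Agent.R126
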