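import Mathlib
import Crest.Agent.R126.Good

/-! The divergence free field carrying moving boxes (row 126). -/

namespace Crest.Agent.R126

open scoped ContDiff
open Crest.Agent.RatPR Crest.AnalysisR.BoxFlow

/-- Data of finitely many moving, deforming boxes that stay apart. -/
structure Moving (n : ℕ) where
  c : Fin n → Fin 3 → ℝ → ℝ
  m : Fin n → Fin 3 → ℝ → ℝ
  h : Fin n → Fin 3 → ℚ
  η : ℚ
  η_pos : 0 < η
  c_good : ∀ i l, G Set.univ fun p => c i l p.1
  m_good : ∀ i l, G Set.univ fun p => m i l p.1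
  minv_good : ∀ i l, G Set.univ fun p => (m i l p.1)⁻¹
  m_pos : ∀ i l t, 0 < m i l t
  m_prod : ∀ i t, m i 0 t * m i 1 t * m i 2 t = 1
  m_zero : ∀ i l, m i l 0 = 1
  c_deriv : ∀ i l t, t ∉ Set.Icc (1 / 4 : ℝ) (3 / 4) → deriv (c i l) t = 0
  m_deriv : ∀ i l t, t ∉ Set.Icc (1 / 4 : ℝ) (3 / 4) → deriv (m i l) t = 0
  apart : ∀ i j, i ≠ j → ∀ t, ∃ l,
    m i l t * (h i l + 2 * η) + m j l t * (h j l + 2 * η) < |c i l t - c j l t|

namespace Moving

variable {n : ℕ} (D : Moving n)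

noncomputable def ν (i : Fin n) (l : Fin 3) (t : ℝ) : ℝ := deriv (D.m i l) t * (D.m i l t)⁻¹

def y (i : Fin n) (l : Fin 3) (p : X) : ℝ := p.2 l - D.c i l p.1

noncomputable def z (i : Fin n) (l : Fin 3) (p : X) : ℝ := D.y i l p * (D.m i l p.1)⁻¹

noncomputable def χ (i : Fin n) (p : X) : ℝ :=
  ∏ l, (Real.smoothTransition ((((D.h i l + 2 * D.η : ℚ) : ℝ) - D.z i l p) * ((D.η⁻¹ : ℚ) : ℝ)) *
    Real.smoothTransition ((((D.h i l + 2 * D.η : ℚ) : ℝ) + D.z i l p) * ((D.η⁻¹ : ℚ) : ℝ)))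

noncomputable def a1 (i : Fin n) (p : X) : ℝ :=
  (deriv (D.c i 1) p.1 + D.ν i 1 p.1 * D.y i 1 p) * D.y i 2 p

noncomputable def a2 (i : Fin n) (p : X) : ℝ :=
  deriv (D.c i 2) p.1 * D.y i 0 p - (deriv (D.c i 0) p.1 + D.ν i 0 p.1 * D.y i 0 p) * D.y i 2 p

noncomputable def A1 (p : X) : ℝ := ∑ i, D.χ i p * D.a1 i p

noncomputable def A2 (p : X) : ℝ := ∑ i, D.χ i p * D.a2 i p

noncomputable def u : Fin 3 → X → ℝ :=
  ![fun p => -fderiv ℝ D.A2 p (direction 3), fun p => fderiv ℝ D.A1 p (direction 3),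
    fun p => fderiv ℝ D.A2 p (direction 1) - fderiv ℝ D.A1 p (direction 2)]

noncomputable def U : Field := fun p j => D.u j p

lemma ηpos : (0 : ℝ) < D.η := by exact_mod_cast D.η_pos

lemma χ_one {i : Fin n} {p : X} (h : ∀ l, |D.z i l p| < D.h i l + D.η) : D.χ i p = 1 := by
  apply Finset.prod_eq_one
  intro l _
  have h1 := abs_lt.mp (h l)
  have hη := D.ηpos
  rw [Real.smoothTransition.one_of_one_le, Real.smoothTransition.one_of_one_le, one_mul]
  · push_cast
    rw [← div_eq_mul_inv, le_div_iff₀ hη]; linarith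
  · push_cast
    rw [← div_eq_mul_inv, le_div_iff₀ hη]; linarith

lemma χ_zero {i : Fin n} {p : X} {l : Fin 3}
    (h : D.m i l p.1 * (D.h i l + 2 * D.η) ≤ |D.y i l p|) : D.χ i p = 0 := by
  apply Finset.prod_eq_zero (Finset.mem_univ l)
  have hm := D.m_pos i l p.1
  have hη := D.ηpos
  have h1 : (D.h i l : ℝ) + 2 * D.η ≤ |D.z i l p| := by
    rw [z, abs_mul, abs_of_pos (inv_pos.mpr hm), ← div_eq_mul_inv, le_div_iff₀ hm]
    linarith
  rcases le_abs.mp h1 with h2 | h2
  · rw [Real.smoothTransition.zero_of_nonpos, zero_mul]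
    push_cast
    exact mul_nonpos_of_nonpos_of_nonneg (by linarith) (inv_pos.mpr hη).le
  · rw [Real.smoothTransition.zero_of_nonpos (x := (_ + _) * _), mul_zero]
    push_cast
    exact mul_nonpos_of_nonpos_of_nonneg (by linarith) (inv_pos.mpr hη).le

lemma exists_radius : ∃ R : ℝ, 0 ≤ R ∧ ∀ i l t, |D.c i l t| + D.m i l t * (D.h i l + 2 * D.η) ≤ R := by
  have h : ∀ i l, ∃ R : ℝ, ∀ t, |D.c i l t| + D.m i l t * (D.h i l + 2 * D.η) ≤ R := by
    intro i l
    obtain ⟨R1, h1⟩ := (D.c_good i l).bound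
    obtain ⟨R2, h2⟩ := ((D.m_good i l).mul (G.const (D.h i l + 2 * D.η))).bound
    refine ⟨R1 + R2, fun t => add_le_add (h1 (t, 0)) ?_⟩
    have := (le_abs_self _).trans (h2 (t, 0))
    push_cast at this
    exact this
  choose R hR using h
  refine ⟨∑ i, ∑ l, |R i l|, by positivity, fun i l t => (hR i l t).trans ?_⟩
  refine (le_abs_self _).trans ?_
  refine le_trans ?_ (Finset.single_le_sum (f := fun i => ∑ l, |R i l|)
    (fun _ _ => by positivity) (Finset.mem_univ i))
  exact Finset.single_le_sum (f := fun l => |R i l|) (fun _ _ => abs_nonneg _) (Finset.mem_univ l)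

lemma exists_support : ∃ S : Set X, IsCompact S ∧ (∀ p ∈ S, p.1 ∈ Set.Icc (1 / 4 : ℝ) (3 / 4)) ∧
    (∀ p, p ∉ S → D.A1 p = 0 ∧ D.A2 p = 0) ∧ G S D.A1 ∧ G S D.A2 := by
  obtain ⟨R, hR0, hR⟩ := D.exists_radius
  refine ⟨Set.Icc (1 / 4 : ℝ) (3 / 4) ×ˢ Metric.closedBall 0 R,
    isCompact_Icc.prod (isCompact_closedBall _ _), fun p hp => hp.1, ?_, ?_⟩
  · intro p hp
    rw [Set.mem_prod, not_and_or] at hp
    rcases hp with hp | hp
    · constructor
      · apply Finset.sum_eq_zero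
        intro i _
        simp [a1, ν, D.c_deriv _ _ _ hp, D.m_deriv _ _ _ hp]
      · apply Finset.sum_eq_zero
        intro i _
        simp [a2, ν, D.c_deriv _ _ _ hp, D.m_deriv _ _ _ hp]
    · rw [mem_closedBall_zero_iff, pi_norm_le_iff_of_nonneg hR0] at hp
      push Not at hp
      obtain ⟨l, hl⟩ := hp
      have hχ : ∀ i, D.χ i p = 0 := fun i => by
        apply D.χ_zero (l := l)
        have h1 := hR i l p.1
        have h2 := abs_sub_abs_le_abs_sub (p.2 l) (D.c i l p.1)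
        rw [Real.norm_eq_abs] at hl
        rw [y]
        linarith
      simp [A1, A2, hχ]
  · set S : Set X := Set.Icc (1 / 4 : ℝ) (3 / 4) ×ˢ Metric.closedBall 0 R
    have hy : ∀ i l, G S (D.y i l) := fun i l => by
      refine (G.coord l R fun p hp => ?_).sub (D.c_good i l).restrict
      have := hp.2
      rw [mem_closedBall_zero_iff, pi_norm_le_iff_of_nonneg hR0] at this
      exact this l
    have hz : ∀ i l, G S (D.z i l) := fun i l => (hy i l).mul (D.minv_good i l).restrict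
    have hχ : ∀ i, G S (D.χ i) := fun i => G.prod _ fun l _ =>
      (((G.const _).sub (hz i l)).mul (G.const _)).step.mul
        (((G.const _).add (hz i l)).mul (G.const _)).step
    have hν : ∀ i l, G S fun p => D.ν i l p.1 := fun i l =>
      ((D.m_good i l).deriv.mul (D.minv_good i l)).restrict
    have hc : ∀ i l, G S fun p => deriv (D.c i l) p.1 := fun i l => (D.c_good i l).deriv.restrict
    exact ⟨G.sum _ fun i _ => (hχ i).mul (((hc i 1).add ((hν i 1).mul (hy i 1))).mul (hy i 2)),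
      G.sum _ fun i _ => (hχ i).mul (((hc i 2).mul (hy i 0)).sub
        (((hc i 0).add ((hν i 0).mul (hy i 0))).mul (hy i 2)))⟩

lemma A_good : G Set.univ D.A1 ∧ G Set.univ D.A2 := by
  obtain ⟨S, h1, -, h2, h3, h4⟩ := D.exists_support
  exact ⟨h3.extend h1.isClosed fun p hp => (h2 p hp).1, h4.extend h1.isClosed fun p hp => (h2 p hp).2⟩

lemma u_good (j : Fin 3) : G Set.univ (D.u j) := by
  obtain ⟨h1, h2⟩ := D.A_good
  fin_cases j
  · exact (h2.dir 3).neg
  · exact h1.dir 3
  · exact (h2.dir 1).sub (h1.dir 2)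

lemma U_contDiff : ContDiff ℝ ∞ D.U := contDiff_pi.mpr fun j => (D.u_good j).contDiff

lemma U_effective : Effective D.U := effective_of (fun j => (D.u_good j).bd) fun j => (D.u_good j).ap

lemma U_support : ∃ S : Set X, IsCompact S ∧ (∀ p ∈ S, p.1 ∈ Set.Icc (1 / 4 : ℝ) (3 / 4)) ∧
    ∀ p, p ∉ S → D.U p = 0 := by
  obtain ⟨S, h1, h2, h3, -, -⟩ := D.exists_support
  refine ⟨S, h1, h2, fun p hp => ?_⟩
  have e1 : D.A1 =ᶠ[nhds p] fun _ => 0 := by
    filter_upwards [h1.isClosed.isOpen_compl.mem_nhds hp] with q hq using (h3 q hq).1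
  have e2 : D.A2 =ᶠ[nhds p] fun _ => 0 := by
    filter_upwards [h1.isClosed.isOpen_compl.mem_nhds hp] with q hq using (h3 q hq).2
  funext j
  fin_cases j <;> simp [U, u, e1.fderiv_eq, e2.fderiv_eq]

lemma U_compact : HasCompactSupport D.U := by
  obtain ⟨S, h1, -, h3⟩ := D.U_support
  exact HasCompactSupport.intro h1 h3

lemma U_time (p : X) (hp : p.1 ∉ Set.Icc (1 / 4 : ℝ) (3 / 4)) : D.U p = 0 := by
  obtain ⟨S, -, h2, h3⟩ := D.U_support
  exact h3 p fun h => hp (h2 p h)

lemma U_div (p : X) : spaceDiv D.U p = 0 := by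
  obtain ⟨h1, h2⟩ := D.A_good
  have key : ∀ j : Fin 3, fderiv ℝ D.U p (0, Pi.single j 1) j =
      fderiv ℝ (D.u j) p (direction j.succ) := fun j => by
    have := congrFun (congrFun (mixedDeriv_eq (fun j => (D.u_good j).contDiff) [j.succ]) p) j
    simp only [mixedDeriv, md] at this
    rw [← this]
    simp only [direction, Fin.succ_ne_zero, dif_neg, not_false_eq_true, Fin.pred_succ]
    rfl
  have d : ∀ {f : X → ℝ}, G Set.univ f → ∀ d, DifferentiableAt ℝ
      (fun p => fderiv ℝ f p (direction d)) p := fun h d =>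
    (h.dir d).contDiff.differentiable (by simp) p
  rw [spaceDiv, Fin.sum_univ_three, key, key, key]
  have e0 : D.u 0 = fun p => -fderiv ℝ D.A2 p (direction 3) := rfl
  have e1 : D.u 1 = fun p => fderiv ℝ D.A1 p (direction 3) := rfl
  have e2 : D.u 2 = fun p => fderiv ℝ D.A2 p (direction 1) - fderiv ℝ D.A1 p (direction 2) := rfl
  rw [e0, e1, e2, fderiv_fun_neg, fderiv_fun_sub (d h2 1) (d h1 2)]
  have s1 := fderiv_symm h2.contDiff p (direction 3) (direction 1)
  have s2 := fderiv_symm h1.contDiff p (direction 3) (direction 2)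
  change -fderiv ℝ (fun p => fderiv ℝ D.A2 p (direction 3)) p (direction 1) +
    fderiv ℝ (fun p => fderiv ℝ D.A1 p (direction 3)) p (direction 2) +
    (fderiv ℝ (fun p => fderiv ℝ D.A2 p (direction 1)) p (direction 3) -
      fderiv ℝ (fun p => fderiv ℝ D.A1 p (direction 2)) p (direction 3)) = 0
  rw [s1, s2]; ring

lemma m_hasDerivAt (i : Fin n) (l : Fin 3) (t : ℝ) :
    HasDerivAt (D.m i l) (deriv (D.m i l) t) t :=
  ((D.m_good i l).contDiff_time.differentiable (by simp) t).hasDerivAt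

lemma c_hasDerivAt (i : Fin n) (l : Fin 3) (t : ℝ) :
    HasDerivAt (D.c i l) (deriv (D.c i l) t) t :=
  ((D.c_good i l).contDiff_time.differentiable (by simp) t).hasDerivAt

lemma ν_sum (i : Fin n) (t : ℝ) : D.ν i 0 t + D.ν i 1 t + D.ν i 2 t = 0 := by
  have h := ((D.m_hasDerivAt i 0 t).mul (D.m_hasDerivAt i 1 t)).mul (D.m_hasDerivAt i 2 t)
  have e : D.m i 0 * D.m i 1 * D.m i 2 = fun _ => 1 := funext fun t => D.m_prod i t
  rw [e] at h
  have h1 := h.unique (hasDerivAt_const t 1)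
  have h0 := (D.m_pos i 0 t).ne'
  have h1' := (D.m_pos i 1 t).ne'
  have h2 := (D.m_pos i 2 t).ne'
  simp only [Pi.mul_apply] at h1
  simp only [ν]
  field_simp
  linear_combination h1

lemma A_eventually {i : Fin n} {p : X} (h : ∀ l, |D.z i l p| < D.h i l + D.η) :
    D.A1 =ᶠ[nhds p] D.a1 i ∧ D.A2 =ᶠ[nhds p] D.a2 i := by
  have hc : ∀ l, Continuous (D.z i l) := fun l =>
    (((continuous_apply l).comp continuous_snd).sub (D.c_good i l).contDiff.continuous).mul
      (D.minv_good i l).contDiff.continuous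
  have ev : ∀ᶠ q in nhds p, ∀ l, |D.z i l q| < D.h i l + D.η :=
    Filter.eventually_all.mpr fun l =>
      (hc l).abs.continuousAt.eventually_lt continuousAt_const (h l)
  have key : ∀ q, (∀ l, |D.z i l q| < D.h i l + D.η) → ∀ j, j ≠ i → D.χ j q = 0 := by
    intro q hq j hj
    obtain ⟨l, hl⟩ := D.apart i j hj.symm q.1
    apply D.χ_zero (l := l)
    have hm := D.m_pos i l q.1
    have h1 : |D.y i l q| < D.m i l q.1 * (D.h i l + D.η) := by
      have := hq l
      rw [z, abs_mul, abs_of_pos (inv_pos.mpr hm), ← div_eq_mul_inv, div_lt_iff₀ hm] at this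
      linarith
    have h2 : D.c i l q.1 - D.c j l q.1 = D.y j l q - D.y i l q := by simp [y]
    have h3 := abs_sub (D.y j l q) (D.y i l q)
    have h4 := mul_pos hm D.ηpos
    rw [h2] at hl
    linarith
  constructor
  · filter_upwards [ev] with q hq
    rw [A1, Finset.sum_eq_single i (fun j _ hj => by rw [key q hq j hj, zero_mul]) (by simp),
      D.χ_one hq, one_mul]
  · filter_upwards [ev] with q hq
    rw [A2, Finset.sum_eq_single i (fun j _ hj => by rw [key q hq j hj, zero_mul]) (by simp),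
      D.χ_one hq, one_mul]

lemma hasDerivAt_affine (a b : ℝ) : HasDerivAt (fun s : ℝ => a + b * s) b 0 := by
  simpa using ((hasDerivAt_id (0 : ℝ)).const_mul b).const_add a

lemma U_near {i : Fin n} {p : X} (h : ∀ l, |D.z i l p| < D.h i l + D.η) (l : Fin 3) :
    D.U p l = deriv (D.c i l) p.1 + D.ν i l p.1 * D.y i l p := by
  obtain ⟨e1, e2⟩ := D.A_eventually h
  obtain ⟨h1, h2⟩ := D.A_good
  have f1 : fderiv ℝ D.A2 p (direction 3) =
      -(deriv (D.c i 0) p.1 + D.ν i 0 p.1 * D.y i 0 p) := by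
    apply fderiv_dir_eq h2.contDiff e2
    convert hasDerivAt_affine (D.a2 i p) _ using 2 with s
    simp [a2, y, direction]; ring
  have f2 : fderiv ℝ D.A1 p (direction 3) = deriv (D.c i 1) p.1 + D.ν i 1 p.1 * D.y i 1 p := by
    apply fderiv_dir_eq h1.contDiff e1
    convert hasDerivAt_affine (D.a1 i p) _ using 2 with s
    simp [a1, y, direction]; ring
  have f3 : fderiv ℝ D.A2 p (direction 1) = deriv (D.c i 2) p.1 - D.ν i 0 p.1 * D.y i 2 p := by
    apply fderiv_dir_eq h2.contDiff e2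
    convert hasDerivAt_affine (D.a2 i p) _ using 2 with s
    simp [a2, y, direction]; ring
  have f4 : fderiv ℝ D.A1 p (direction 2) = D.ν i 1 p.1 * D.y i 2 p := by
    apply fderiv_dir_eq h1.contDiff e1
    convert hasDerivAt_affine (D.a1 i p) _ using 2 with s
    simp [a1, y, direction]; ring
  have := D.ν_sum i p.1
  fin_cases l
  · change -fderiv ℝ D.A2 p (direction 3) = _
    rw [f1, neg_neg]; rfl
  · exact f2
  · change fderiv ℝ D.A2 p (direction 1) - fderiv ℝ D.A1 p (direction 2) =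
      deriv (D.c i 2) p.1 + D.ν i 2 p.1 * D.y i 2 p
    rw [f3, f4]
    linear_combination (-D.y i 2 p) * this

lemma trajectory {i : Fin n} {x : Fin 3 → ℝ} (h : ∀ l, |x l - D.c i l 0| < D.h i l + D.η) (t : ℝ) :
    HasDerivAt (fun s l => D.c i l s + D.m i l s * (x l - D.c i l 0))
      (D.U (t, fun l => D.c i l t + D.m i l t * (x l - D.c i l 0))) t := by
  rw [hasDerivAt_pi]
  intro l
  have hz : ∀ l, D.z i l (t, fun l => D.c i l t + D.m i l t * (x l - D.c i l 0)) =
      x l - D.c i l 0 := fun l => by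
    have := (D.m_pos i l t).ne'
    simp only [z, y]; field_simp; ring
  rw [D.U_near (i := i) (fun l => by rw [hz]; exact h l)]
  refine ((D.c_hasDerivAt i l t).add ((D.m_hasDerivAt i l t).mul_const _)).congr_deriv ?_
  have := (D.m_pos i l t).ne'
  simp only [ν, y]; field_simp; ring

theorem exists_flow : ∃ Φ : ℝ → (Fin 3 → ℝ) → (Fin 3 → ℝ), IsFlow D.U Φ ∧
    ∀ i x, (∀ l, |x l - D.c i l 0| < D.h i l + D.η) →
      Φ 1 x = fun l => D.c i l 1 + D.m i l 1 * (x l - D.c i l 0) := by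
  have key : ∀ x : Fin 3 → ℝ, ∃ γ : ℝ → Fin 3 → ℝ, γ 0 = x ∧
      (∀ t, HasDerivAt γ (D.U (t, γ t)) t) ∧ ∀ i, (∀ l, |x l - D.c i l 0| < D.h i l + D.η) →
        γ 1 = fun l => D.c i l 1 + D.m i l 1 * (x l - D.c i l 0) := by
    intro x
    by_cases hx : ∃ i, ∀ l, |x l - D.c i l 0| < D.h i l + D.η
    · obtain ⟨i, hi⟩ := hx
      refine ⟨fun s l => D.c i l s + D.m i l s * (x l - D.c i l 0), ?_, D.trajectory hi, ?_⟩
      · funext l; simp [D.m_zero]
      · intro j hj
        by_cases e : i = j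
        · rw [e]
        · exfalso
          obtain ⟨l, hl⟩ := D.apart i j e 0
          rw [D.m_zero, D.m_zero] at hl
          have h1 := hi l
          have h2 := hj l
          have h3 := abs_sub (x l - D.c j l 0) (x l - D.c i l 0)
          rw [show x l - D.c j l 0 - (x l - D.c i l 0) = D.c i l 0 - D.c j l 0 by ring] at h3
          linarith [D.ηpos]
    · obtain ⟨γ, h1, h2⟩ := exists_global_solution D.U_contDiff D.U_compact D.U_time x
      exact ⟨γ, h1, h2, fun i hi => absurd ⟨i, hi⟩ hx⟩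
  choose γ h1 h2 h3 using key
  exact ⟨fun t x => γ x t, ⟨h1, fun t x => h2 x t⟩, fun i x hx => h3 x i hx⟩

end Moving

end Crest.Agent.R126
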