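import Mathlib
import Crest.Agent.R126.Construct

/-! Choice of the parameters of the motion (row 126). -/

namespace Crest.Agent.R126

open scoped ContDiff
open Crest.Agent.RatPR Crest.AnalysisR.BoxFlow

lemma sep_of_disjoint {a h a' h' : Fin 3 → ℚ} (hh : ∀ l, 0 < h l) (hh' : ∀ l, 0 < h' l)
    (hd : Disjoint (box a h) (box a' h')) : ∃ l, (h l : ℝ) + h' l < |(a l : ℝ) - a' l| := by
  by_contra hc
  push Not at hc
  have hd' := Set.disjoint_left.mp hd
  refine @hd'
    (fun l => ((a l : ℝ) * h' l + a' l * h l) / (h l + h' l)) (fun l => ?_) (fun l => ?_)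
  · have p1 : (0 : ℝ) < h l := by exact_mod_cast hh l
    have p2 : (0 : ℝ) < h' l := by exact_mod_cast hh' l
    have e : ((a l : ℝ) * h' l + a' l * h l) / (h l + h' l) - a l =
        -((a l : ℝ) - a' l) * (h l / (h l + h' l)) := by field_simp; ring
    simp only
    rw [e, abs_mul, abs_neg, abs_of_pos (by positivity : 0 < (h l : ℝ) / (h l + h' l))]
    refine (mul_le_mul_of_nonneg_right (hc l) (by positivity)).trans (le_of_eq ?_)
    field_simp
  · have p1 : (0 : ℝ) < h l := by exact_mod_cast hh l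
    have p2 : (0 : ℝ) < h' l := by exact_mod_cast hh' l
    have e : ((a l : ℝ) * h' l + a' l * h l) / (h l + h' l) - a' l =
        ((a l : ℝ) - a' l) * (h' l / (h l + h' l)) := by field_simp; ring
    simp only
    rw [e, abs_mul, abs_of_pos (by positivity : 0 < (h' l : ℝ) / (h l + h' l))]
    refine (mul_le_mul_of_nonneg_right (hc l) (by positivity)).trans (le_of_eq ?_)
    field_simp

lemma exists_eta {n : ℕ} (a b h r : Fin n → Fin 3 → ℝ)
    (ha : ∀ i j, i ≠ j → ∃ l, h i l + h j l < |a i l - a j l|)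
    (hb : ∀ i j, i ≠ j → ∃ l, r i l * h i l + r j l * h j l < |b i l - b j l|) :
    ∃ η : ℚ, 0 < η ∧ (∀ i j, i ≠ j → ∃ l, (h i l + 2 * η) + (h j l + 2 * η) < |a i l - a j l|) ∧
      ∀ i j, i ≠ j → ∃ l, r i l * (h i l + 2 * η) + r j l * (h j l + 2 * η) < |b i l - b j l| := by
  have e1 : ∀ᶠ η : ℝ in nhds 0, ∀ i j, i ≠ j →
      ∃ l, (h i l + 2 * η) + (h j l + 2 * η) < |a i l - a j l| := by
    simp only [Filter.eventually_all]
    intro i j hij
    obtain ⟨l, hl⟩ := ha i j hij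
    have : ContinuousAt (fun η : ℝ => (h i l + 2 * η) + (h j l + 2 * η)) 0 := by fun_prop
    filter_upwards [this.eventually_lt continuousAt_const (by simpa using hl)] with η hη
    exact ⟨l, hη⟩
  have e2 : ∀ᶠ η : ℝ in nhds 0, ∀ i j, i ≠ j →
      ∃ l, r i l * (h i l + 2 * η) + r j l * (h j l + 2 * η) < |b i l - b j l| := by
    simp only [Filter.eventually_all]
    intro i j hij
    obtain ⟨l, hl⟩ := hb i j hij
    have : ContinuousAt (fun η : ℝ => r i l * (h i l + 2 * η) + r j l * (h j l + 2 * η)) 0 := by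
      fun_prop
    filter_upwards [this.eventually_lt continuousAt_const (by simpa using hl)] with η hη
    exact ⟨l, hη⟩
  obtain ⟨ε, hε, h⟩ := Metric.eventually_nhds_iff.mp (e1.and e2)
  obtain ⟨η, h1, h2⟩ := exists_rat_btwn hε
  have := h (y := η) (by rw [Real.dist_eq, sub_zero, abs_of_pos h1]; exact h2)
  exact ⟨η, by exact_mod_cast h1, this.1, this.2⟩

lemma exists_generic {ι : Type} [Finite ι] (u v : ι → Fin 3 → ℚ) :
    ∃ w : Fin 3 → ℚ, ∀ i, ∀ α β γ : ℝ, (∀ l, α * u i l + β * v i l + γ * w l = 0) → γ = 0 := by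
  have hne : ∀ i, Submodule.span ℚ ({u i, v i} : Set (Fin 3 → ℚ)) ≠ ⊤ := by
    intro i h
    classical
    have h1 := finrank_span_finset_le_card (R := ℚ) ({u i, v i} : Finset (Fin 3 → ℚ))
    rw [Set.finrank, Finset.coe_pair, h, finrank_top] at h1
    have h2 := Finset.card_le_two (a := u i) (b := v i)
    simp at h1
    omega
  obtain ⟨w, hw⟩ := Submodule.exists_forall_notMem_of_forall_ne_top _ hne
  refine ⟨w, fun i α β γ h => ?_⟩
  obtain ⟨f, hf, hf'⟩ := Submodule.exists_dual_map_eq_bot_of_notMem (hw i) inferInstance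
  have z : ∀ x ∈ Submodule.span ℚ ({u i, v i} : Set (Fin 3 → ℚ)), f x = 0 := fun x hx => by
    have : f x ∈ Submodule.map f (Submodule.span ℚ ({u i, v i} : Set (Fin 3 → ℚ))) :=
      Submodule.mem_map_of_mem hx
    rwa [hf', Submodule.mem_bot] at this
  have e : ∀ x : Fin 3 → ℚ, (f x : ℝ) = x 0 * (f (Pi.single 0 1) : ℝ) +
      x 1 * (f (Pi.single 1 1) : ℝ) + x 2 * (f (Pi.single 2 1) : ℝ) := fun x => by
    have : x = x 0 • Pi.single 0 1 + x 1 • Pi.single 1 1 + x 2 • Pi.single 2 1 := by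
      funext l; fin_cases l <;> simp
    conv_lhs => rw [this]
    simp only [map_add, map_smul, smul_eq_mul]
    push_cast; rfl
  have e1 := e (u i)
  have e2 := e (v i)
  have e3 := e w
  rw [z _ (Submodule.subset_span (by simp))] at e1 e2
  have hf0 : (f w : ℝ) ≠ 0 := by exact_mod_cast hf
  have : γ * (f w : ℝ) = 0 := by
    push_cast at e1 e2
    linear_combination γ * e3 + α * e1 + β * e2 + (f (Pi.single 0 1) : ℝ) * h 0 +
      (f (Pi.single 1 1) : ℝ) * h 1 + (f (Pi.single 2 1) : ℝ) * h 2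
  exact (mul_eq_zero.mp this).resolve_right hf0

lemma exists_scale {ι : Type} [Finite ι] (Dv sz : ι → ℝ → Fin 3 → ℝ)
    (hD : ∀ i, ContinuousOn (Dv i) (Set.Icc 0 1)) (hs : ∀ i, ContinuousOn (sz i) (Set.Icc 0 1))
    (hne : ∀ i, ∀ s ∈ Set.Icc (0 : ℝ) 1, Dv i s ≠ 0) :
    ∃ L : ℕ, 1 ≤ L ∧ ∀ i, ∀ s ∈ Set.Icc (0 : ℝ) 1, ∃ l, sz i s l < L * |Dv i s l| := by
  have key : ∀ i, ∀ᶠ L : ℕ in Filter.atTop, ∀ s ∈ Set.Icc (0 : ℝ) 1,
      ∃ l, sz i s l < L * |Dv i s l| := by
    intro i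
    have hc : ContinuousOn (fun s => ‖sz i s‖ / ‖Dv i s‖) (Set.Icc 0 1) :=
      (hs i).norm.div (hD i).norm fun s hs' => norm_ne_zero_iff.mpr (hne i s hs')
    obtain ⟨C, hC⟩ := isCompact_Icc.exists_bound_of_continuousOn hc
    filter_upwards [tendsto_natCast_atTop_atTop.eventually_gt_atTop (max C 0)] with L hL s hs'
    by_contra hcon
    push Not at hcon
    have hL0 : (0 : ℝ) < L := lt_of_le_of_lt (le_max_right _ _) hL
    have hp : 0 < ‖Dv i s‖ := norm_pos_iff.mpr (hne i s hs')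
    have h1 : ‖Dv i s‖ ≤ ‖sz i s‖ / L := by
      rw [pi_norm_le_iff_of_nonneg (by positivity)]
      intro l
      rw [le_div_iff₀ hL0, Real.norm_eq_abs, mul_comm]
      exact (hcon l).trans ((le_abs_self _).trans (norm_le_pi_norm (sz i s) l))
    have h2 := (le_abs_self _).trans (hC s hs')
    rw [div_le_iff₀ hp] at h2
    rw [le_div_iff₀ hL0] at h1
    have h3 : C < L := lt_of_le_of_lt (le_max_left _ _) hL
    nlinarith
  obtain ⟨L, hL⟩ := ((Filter.eventually_all.mpr key).and (Filter.eventually_ge_atTop 1)).exists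
  exact ⟨L, hL.2, hL.1⟩

/-- interpolated stretching factors of determinant one. -/
noncomputable def mm (r : Fin 3 → ℚ) (s : ℝ) : Fin 3 → ℝ :=
  ![1 + s * (r 0 - 1), 1 + s * (r 1 - 1), ((1 + s * (r 0 - 1)) * (1 + s * (r 1 - 1)))⁻¹]

lemma lin_ge {r : ℝ} {s : ℝ} (hs : s ∈ Set.Icc (0 : ℝ) 1) : min 1 r ≤ 1 + s * (r - 1) := by
  have h1 := min_le_left 1 r
  have h2 := min_le_right 1 r
  nlinarith [hs.1, hs.2]

lemma lin_pos {r : ℝ} (hr : 0 < r) {s : ℝ} (hs : s ∈ Set.Icc (0 : ℝ) 1) : 0 < 1 + s * (r - 1) :=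
  lt_of_lt_of_le (lt_min one_pos hr) (lin_ge hs)

noncomputable def T (k : ℚ) (t : ℝ) : ℝ := Real.smoothTransition (8 * t - k)

lemma T_mem (k : ℚ) (t : ℝ) : T k t ∈ Set.Icc (0 : ℝ) 1 :=
  ⟨Real.smoothTransition.nonneg _, Real.smoothTransition.le_one _⟩

lemma T_zero {k : ℚ} {t : ℝ} (h : 8 * t ≤ k) : T k t = 0 :=
  Real.smoothTransition.zero_of_nonpos (by linarith)

lemma T_one {k : ℚ} {t : ℝ} (h : (k : ℝ) + 1 ≤ 8 * t) : T k t = 1 :=
  Real.smoothTransition.one_of_one_le (by linarith)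

lemma deriv_zero_of (F : ℝ → ℝ → ℝ → ℝ) {t : ℝ} (ht : t ∉ Set.Icc (1 / 4 : ℝ) (3 / 4)) :
    deriv (fun t => F (T 2 t) (T 3 t) (T 5 t)) t = 0 := by
  rw [Set.mem_Icc, not_and_or, not_le, not_le] at ht
  rcases ht with ht | ht
  · have : (fun t => F (T 2 t) (T 3 t) (T 5 t)) =ᶠ[nhds t] fun _ => F 0 0 0 := by
      filter_upwards [gt_mem_nhds ht] with s hs
      rw [T_zero (by push_cast; linarith), T_zero (by push_cast; linarith),
        T_zero (by push_cast; linarith)]
    rw [this.deriv_eq]; simp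
  · have : (fun t => F (T 2 t) (T 3 t) (T 5 t)) =ᶠ[nhds t] fun _ => F 1 1 1 := by
      filter_upwards [lt_mem_nhds ht] with s hs
      rw [T_one (by push_cast; linarith), T_one (by push_cast; linarith),
        T_one (by push_cast; linarith)]
    rw [this.deriv_eq]; simp

theorem exists_moving (n : ℕ) (a b h r : Fin n → Fin 3 → ℚ) (hr : ∀ i l, 0 < r i l)
    (hh : ∀ i l, 0 < h i l) (hvol : ∀ i, r i 0 * r i 1 * r i 2 = 1)
    (ha : ∀ i j, i ≠ j → ∃ l, (h i l : ℝ) + h j l < |(a i l : ℝ) - a j l|)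
    (hb : ∀ i j, i ≠ j → ∃ l, (r i l : ℝ) * h i l + r j l * h j l < |(b i l : ℝ) - b j l|) :
    ∃ D : Moving n, D.h = h ∧ ∀ i l, D.c i l 0 = a i l ∧ D.c i l 1 = b i l ∧ D.m i l 1 = r i l := by
  obtain ⟨η, hη, ha', hb'⟩ := exists_eta (fun i l => (a i l : ℝ)) (fun i l => (b i l : ℝ))
    (fun i l => (h i l : ℝ)) (fun i l => (r i l : ℝ)) ha hb
  obtain ⟨w, hw⟩ := exists_generic (ι := Fin n × Fin n) (fun x l => a x.1 l - a x.2 l)
    (fun x l => b x.1 l - b x.2 l)
  have hr' : ∀ i l, (0 : ℝ) < r i l := fun i l => by exact_mod_cast hr i l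
  let P : Fin n → ℝ → Fin 3 → ℝ := fun i s l =>
    (1 - s) * a i l + s * b i l + s * (1 - s) * ((((i : ℕ) : ℚ) * w l : ℚ) : ℝ)
  have mm0 : ∀ i l, mm (r i) 0 l = 1 := fun i l => by fin_cases l <;> simp [mm]
  have mm1 : ∀ i l, mm (r i) 1 l = r i l := fun i l => by
    have hv : (r i 0 : ℝ) * r i 1 * r i 2 = 1 := by exact_mod_cast hvol i
    fin_cases l
    · simp [mm]
    · simp [mm]
    · change ((1 + 1 * ((r i 0 : ℝ) - 1)) * (1 + 1 * (r i 1 - 1)))⁻¹ = r i 2
      apply inv_eq_of_mul_eq_one_right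
      linear_combination hv
  have mmc : ∀ i, ContinuousOn (mm (r i)) (Set.Icc 0 1) := fun i => by
    rw [continuousOn_pi]
    intro l
    fin_cases l
    · change ContinuousOn (fun s : ℝ => 1 + s * ((r i 0 : ℝ) - 1)) _; fun_prop
    · change ContinuousOn (fun s : ℝ => 1 + s * ((r i 1 : ℝ) - 1)) _; fun_prop
    · change ContinuousOn (fun s : ℝ => ((1 + s * ((r i 0 : ℝ) - 1)) *
        (1 + s * (r i 1 - 1)))⁻¹) _
      exact ContinuousOn.inv₀ (by fun_prop) fun s hs =>
        (mul_pos (lin_pos (hr' i 0) hs) (lin_pos (hr' i 1) hs)).ne'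
  obtain ⟨L, hL1, hL⟩ := exists_scale (ι := {x : Fin n × Fin n // x.1 ≠ x.2})
    (fun x s l => P x.1.1 s l - P x.1.2 s l)
    (fun x s l => mm (r x.1.1) s l * (h x.1.1 l + 2 * η) + mm (r x.1.2) s l * (h x.1.2 l + 2 * η))
    (fun x => by simp only [P]; fun_prop)
    (fun x => continuousOn_pi.mpr fun l =>
      ((continuousOn_pi.mp (mmc _) l).mul continuousOn_const).add
        ((continuousOn_pi.mp (mmc _) l).mul continuousOn_const))
    (by
      rintro ⟨⟨i, j⟩, hij⟩ s hs h0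
      have h1 : ∀ l, P i s l - P j s l = 0 := fun l => congrFun h0 l
      have h2 := hw (i, j) (1 - s) s (s * (1 - s) * ((i : ℕ) - (j : ℕ) : ℝ)) fun l => by
        have := h1 l
        simp only [P] at this
        push_cast at this ⊢
        linear_combination this
      have h3 : ((i : ℕ) - (j : ℕ) : ℝ) ≠ 0 := by
        rw [sub_ne_zero]
        intro e
        exact hij (Fin.ext (by exact_mod_cast e))
      have hh' : ∀ i l, (0 : ℝ) < h i l := fun i l => by exact_mod_cast hh i l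
      rcases mul_eq_zero.mp ((mul_eq_zero.mp h2).resolve_right h3) with e | e
      · obtain ⟨l, hl⟩ := ha i j hij
        have := h1 l
        simp only [P, e] at this
        rw [show (a i l : ℝ) - a j l = 0 by linarith, abs_zero] at hl
        linarith [hh' i l, hh' j l]
      · obtain ⟨l, hl⟩ := hb i j hij
        have := h1 l
        have e' : s = 1 := by linarith
        simp only [P, e'] at this
        rw [show (b i l : ℝ) - b j l = 0 by linarith, abs_zero] at hl
        linarith [mul_pos (hr' i l) (hh' i l), mul_pos (hr' j l) (hh' j l)])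
  have hL1' : (1 : ℝ) ≤ L := by exact_mod_cast hL1
  let lam : ℝ → ℝ := fun t => 1 + (((L : ℚ) - 1 : ℚ) : ℝ) * (T 2 t - T 5 t)
  have lam_ge : ∀ t, 1 ≤ lam t := fun t => by
    have : T 5 t ≤ T 2 t := Real.smoothTransition.monotone (by push_cast; linarith)
    simp only [lam]
    push_cast
    nlinarith
  have gT : ∀ k, G Set.univ fun p : X => T k p.1 := fun k => G.time k
  have g1 : G Set.univ fun _ : X => (1 : ℝ) := (G.const 1).of_eq fun _ => by simp
  have glin : ∀ i l, G Set.univ fun p : X => 1 + T 3 p.1 * ((r i l : ℝ) - 1) := fun i l =>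
    g1.add ((gT 3).mul ((G.const _).sub g1))
  have lin_lb : ∀ i l t, min 1 (r i l : ℝ) ≤ 1 + T 3 t * ((r i l : ℝ) - 1) := fun i l t =>
    lin_ge (T_mem 3 t)
  have mpos : ∀ i l, 0 < min 1 (r i l : ℝ) := fun i l => lt_min one_pos (hr' i l)
  refine ⟨{ c := fun i l t => lam t * P i (T 3 t) l
            m := fun i l t => mm (r i) (T 3 t) l
            h := h
            η := η
            η_pos := hη
            c_good := fun i l => ?_
            m_good := fun i l => ?_
            minv_good := fun i l => ?_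
            m_pos := fun i l t => ?_
            m_prod := fun i t => ?_
            m_zero := fun i l => ?_
            c_deriv := fun i l t ht => ?_
            m_deriv := fun i l t ht => ?_
            apart := fun i j hij t => ?_ }, rfl, fun i l => ⟨?_, ?_, ?_⟩⟩
  · exact (g1.add ((G.const _).mul ((gT 2).sub (gT 5)))).mul
      ((((g1.sub (gT 3)).mul (G.const _)).add ((gT 3).mul (G.const _))).add
        (((gT 3).mul (g1.sub (gT 3))).mul (G.const _)))
  · fin_cases l
    · exact glin i 0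
    · exact glin i 1
    · exact ((glin i 0).mul (glin i 1)).inv (mul_pos (mpos i 0) (mpos i 1)) fun p =>
        mul_le_mul (lin_lb i 0 _) (lin_lb i 1 _) (mpos i 1).le ((mpos i 0).le.trans (lin_lb i 0 _))
  · fin_cases l
    · exact (glin i 0).inv (mpos i 0) fun p => lin_lb i 0 _
    · exact (glin i 1).inv (mpos i 1) fun p => lin_lb i 1 _
    · exact ((glin i 0).mul (glin i 1)).of_eq fun p => (inv_inv _).symm
  · fin_cases l
    · exact lin_pos (hr' i 0) (T_mem 3 t)
    · exact lin_pos (hr' i 1) (T_mem 3 t)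
    · exact inv_pos.mpr (mul_pos (lin_pos (hr' i 0) (T_mem 3 t)) (lin_pos (hr' i 1) (T_mem 3 t)))
  · exact mul_inv_cancel₀
      (mul_pos (lin_pos (hr' i 0) (T_mem 3 t)) (lin_pos (hr' i 1) (T_mem 3 t))).ne'
  · rw [T_zero (by norm_num), mm0]
  · exact deriv_zero_of (fun x y z => (1 + (((L : ℚ) - 1 : ℚ) : ℝ) * (x - z)) * P i y l) ht
  · exact deriv_zero_of (fun _ y _ => mm (r i) y l) ht
  · have hl := lam_ge t
    rcases le_or_gt t (3 / 8) with h1 | h1
    · obtain ⟨l, hl'⟩ := ha' i j hij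
      refine ⟨l, ?_⟩
      rw [T_zero (by push_cast; linarith), mm0, mm0, ← mul_sub, abs_mul,
        abs_of_pos (by linarith : 0 < lam t)]
      simp only [P]
      simp only [sub_zero, one_mul, zero_mul, add_zero]
      exact hl'.trans_le (le_mul_of_one_le_left (abs_nonneg _) hl)
    · rcases le_or_gt (1 / 2) t with h2 | h2
      · obtain ⟨l, hl'⟩ := hb' i j hij
        refine ⟨l, ?_⟩
        rw [T_one (by push_cast; linarith), mm1, mm1, ← mul_sub, abs_mul,
          abs_of_pos (by linarith : 0 < lam t)]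
        simp only [P]
        simp only [sub_self, one_mul, zero_mul, mul_zero, add_zero, zero_add]
        exact hl'.trans_le (le_mul_of_one_le_left (abs_nonneg _) hl)
      · obtain ⟨l, hl'⟩ := hL ⟨(i, j), hij⟩ (T 3 t) (T_mem 3 t)
        refine ⟨l, ?_⟩
        have e : lam t = L := by
          simp only [lam]
          rw [T_one (by push_cast; linarith), T_zero (by push_cast; linarith)]
          push_cast; ring
        rw [← mul_sub, abs_mul, e, abs_of_pos (by linarith : (0 : ℝ) < L)]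
        exact hl'
  · simp only [lam, P]
    rw [T_zero (by norm_num), T_zero (by norm_num), T_zero (by norm_num)]
    simp
  · simp only [lam, P]
    rw [T_one (by norm_num), T_one (by norm_num), T_one (by norm_num)]
    simp
  · simp only
    rw [T_one (by norm_num), mm1]

theorem main
    (n : ℕ) (a b h k : Fin n → Fin 3 → ℚ)
    (hh : ∀ i j, 0 < h i j) (hk : ∀ i j, 0 < k i j)
    (ha : Pairwise fun i i' => Disjoint (box (a i) (h i)) (box (a i') (h i')))
    (hb : Pairwise fun i i' => Disjoint (box (b i) (k i)) (box (b i') (k i')))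
    (hvol : ∀ i, ∏ j : Fin 3, k i j / h i j = 1) :
    ∃ (U : Field) (Φ : ℝ → (Fin 3 → ℝ) → (Fin 3 → ℝ)),
      ContDiff ℝ ∞ U ∧ HasCompactSupport U ∧ Effective U ∧
      (∀ p : ℝ × (Fin 3 → ℝ), p.1 ∉ Set.Icc (1 / 4 : ℝ) (3 / 4) → U p = 0) ∧
      (∀ p : ℝ × (Fin 3 → ℝ), spaceDiv U p = 0) ∧ IsFlow U Φ ∧
      ∀ i : Fin n, ∃ O : Set (Fin 3 → ℝ), IsOpen O ∧ box (a i) (h i) ⊆ O ∧
        ∀ x ∈ O, Φ 1 x = fun j => (b i j : ℝ) + ((k i j / h i j : ℚ) : ℝ) * (x j - (a i j : ℝ)) := by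
  obtain ⟨D, hD, hD'⟩ := exists_moving n a b h (fun i l => k i l / h i l)
    (fun i l => div_pos (hk i l) (hh i l)) hh
    (fun i => by rw [← hvol i, Fin.prod_univ_three])
    (fun i j hij => sep_of_disjoint (hh i) (hh j) (ha hij))
    (fun i j hij => by
      obtain ⟨l, hl⟩ := sep_of_disjoint (hk i) (hk j) (hb hij)
      refine ⟨l, ?_⟩
      have h1 : (h i l : ℝ) ≠ 0 := by exact_mod_cast (hh i l).ne'
      have h2 : (h j l : ℝ) ≠ 0 := by exact_mod_cast (hh j l).ne'
      push_cast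
      rwa [div_mul_cancel₀ _ h1, div_mul_cancel₀ _ h2])
  obtain ⟨Φ, hΦ, hΦ'⟩ := D.exists_flow
  refine ⟨D.U, Φ, D.U_contDiff, D.U_compact, D.U_effective, D.U_time, D.U_div, hΦ, fun i => ?_⟩
  refine ⟨{x | ∀ l, |x l - D.c i l 0| < D.h i l + D.η}, ?_, ?_, ?_⟩
  · rw [Set.ofPred_forall]
    exact isOpen_iInter_of_finite fun l => isOpen_lt (by fun_prop) continuous_const
  · intro x hx l
    rw [(hD' i l).1, hD]
    linarith [hx l, D.ηpos]
  · intro x hx
    rw [hΦ' i x hx]
    funext l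
    rw [(hD' i l).1, (hD' i l).2.1, (hD' i l).2.2]

end Crest.Agent.R126
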